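import Mathlib

/-! Covering estimates for row 322. -/

set_option autoImplicit false

namespace Crest.Agent.R322

open MeasureTheory Set Metric Module
open scoped ENNReal RealInnerProductSpace

section net
variable {W : Type*} [NormedAddCommGroup W] [NormedSpace ℝ W] [FiniteDimensional ℝ W]

open scoped Function in
lemma card_le_of_sep (R δ : ℝ) (hR : 0 ≤ R) (hδ : 0 < δ) (s : Finset W)
    (hs : ∀ c ∈ s, ‖c‖ ≤ R) (h : ∀ c ∈ s, ∀ d ∈ s, c ≠ d → δ ≤ ‖c - d‖) :
    (s.card : ℝ) ≤ (1 + 2 * R / δ) ^ finrank ℝ W := by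
  borelize W
  let μ : Measure W := Measure.addHaar
  have ρpos : 0 < R + δ / 2 := by positivity
  have δpos : 0 < δ / 2 := by positivity
  set A := ⋃ c ∈ s, ball (c : W) (δ / 2) with hA
  have D : Set.Pairwise (s : Set W) (Disjoint on fun c => ball (c : W) (δ / 2)) := by
    rintro c hc d hd hcd
    apply ball_disjoint_ball
    rw [dist_eq_norm]
    have := h c hc d hd hcd
    linarith
  have A_subset : A ⊆ ball (0 : W) (R + δ / 2) := by
    refine iUnion₂_subset fun x hx => ?_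
    apply ball_subset_ball'
    rw [dist_zero_right]
    linarith [hs x hx]
  have I :
    (s.card : ℝ≥0∞) * ENNReal.ofReal ((δ / 2) ^ finrank ℝ W) * μ (ball 0 1) ≤
      ENNReal.ofReal ((R + δ / 2) ^ finrank ℝ W) * μ (ball 0 1) :=
    calc
      (s.card : ℝ≥0∞) * ENNReal.ofReal ((δ / 2) ^ finrank ℝ W) * μ (ball 0 1) = μ A := by
        rw [hA, measure_biUnion_finset D fun c _ => measurableSet_ball]
        simp only [μ.addHaar_ball_of_pos _ δpos]
        simp only [Finset.sum_const, nsmul_eq_mul, mul_assoc]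
      _ ≤ μ (ball (0 : W) (R + δ / 2)) := measure_mono A_subset
      _ = ENNReal.ofReal ((R + δ / 2) ^ finrank ℝ W) * μ (ball 0 1) := by
        simp only [μ.addHaar_ball_of_pos _ ρpos]
  have J : (s.card : ℝ≥0∞) * ENNReal.ofReal ((δ / 2) ^ finrank ℝ W)
      ≤ ENNReal.ofReal ((R + δ / 2) ^ finrank ℝ W) :=
    (ENNReal.mul_le_mul_iff_left (measure_ball_pos _ _ zero_lt_one).ne' measure_ball_lt_top.ne).1 I
  have K := ENNReal.toReal_le_of_le_ofReal (pow_nonneg ρpos.le _) J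
  rw [ENNReal.toReal_mul, ENNReal.toReal_natCast, ENNReal.toReal_ofReal (by positivity)] at K
  have e : 1 + 2 * R / δ = (R + δ / 2) / (δ / 2) := by field_simp; ring
  rw [e, div_pow, le_div_iff₀ (by positivity)]
  exact K

lemma exists_net (R δ : ℝ) (hR : 0 ≤ R) (hδ : 0 < δ) :
    ∃ s : Finset W, (s.card : ℝ) ≤ (1 + 2 * R / δ) ^ finrank ℝ W ∧
      ∀ x : W, ‖x‖ ≤ R → ∃ p ∈ s, ‖x - p‖ ≤ δ := by
  classical
  let S : Set ℕ := {n | ∃ s : Finset W, s.card = n ∧ (∀ c ∈ s, ‖c‖ ≤ R) ∧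
    ∀ c ∈ s, ∀ d ∈ s, c ≠ d → δ ≤ ‖c - d‖}
  have hne : S.Nonempty := ⟨0, ∅, by simp⟩
  have hbdd : BddAbove S := by
    refine ⟨⌈(1 + 2 * R / δ) ^ finrank ℝ W⌉₊, ?_⟩
    rintro n ⟨s, rfl, h1, h2⟩
    have := (card_le_of_sep R δ hR hδ s h1 h2).trans (Nat.le_ceil _)
    exact_mod_cast this
  obtain ⟨s, hs, h1, h2⟩ := Nat.sSup_mem hne hbdd
  refine ⟨s, card_le_of_sep R δ hR hδ s h1 h2, fun x hx => ?_⟩
  by_contra hcon
  push Not at hcon
  have hxs : x ∉ s := fun h => by have := hcon x h; simp at this; linarith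
  have : s.card + 1 ∈ S := by
    refine ⟨insert x s, Finset.card_insert_of_notMem hxs, ?_, ?_⟩
    · intro c hc
      rcases Finset.mem_insert.1 hc with rfl | hc
      · exact hx
      · exact h1 c hc
    · intro c hc d hd hcd
      rcases Finset.mem_insert.1 hc with hc' | hc' <;>
        rcases Finset.mem_insert.1 hd with hd' | hd'
      · exact absurd (hc'.trans hd'.symm) hcd
      · rw [hc']; exact (hcon d hd').le
      · rw [hd', norm_sub_rev]; exact (hcon c hc').le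
      · exact h2 c hc' d hd' hcd
  have := le_csSup hbdd this
  omega

end net

variable {E : Type*} [NormedAddCommGroup E] [InnerProductSpace ℝ E] [FiniteDimensional ℝ E]
  [MeasurableSpace E] [BorelSpace E]

/-- Frostman condition with constant `K` and exponent `α`. -/
def Frost (ν : Measure E) (K : ℝ≥0∞) (α : ℕ) : Prop :=
  ∀ (z : E) (ρ : ℝ), 0 < ρ → ν (closedBall z ρ) ≤ K * ENNReal.ofReal ρ ^ α

/-- distance to a subspace -/
noncomputable def dst (V : Submodule ℝ E) (v : E) : ℝ := ‖v - V.starProjection v‖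

omit [MeasurableSpace E] [BorelSpace E] in
lemma dst_nonneg (V : Submodule ℝ E) (v : E) : 0 ≤ dst V v := norm_nonneg _

omit [MeasurableSpace E] [BorelSpace E] in
lemma continuous_dst (V : Submodule ℝ E) : Continuous (dst V) := by
  unfold dst; fun_prop

omit [BorelSpace E] in
lemma Frost.slab {ν : Measure E} {K : ℝ≥0∞} {α : ℕ} (h : Frost ν K α) (V : Submodule ℝ E)
    (a : E) (R δ : ℝ) (hR : 0 ≤ R) (hδ : 0 < δ) :
    ν {x | ‖x - a‖ ≤ R ∧ dst V (x - a) ≤ δ}
      ≤ ENNReal.ofReal ((1 + 2 * R / δ) ^ finrank ℝ V) * (K * ENNReal.ofReal (2 * δ) ^ α) := by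
  obtain ⟨s, hs, hcov⟩ := exists_net (W := V) R δ hR hδ
  have hsub : {x | ‖x - a‖ ≤ R ∧ dst V (x - a) ≤ δ}
      ⊆ ⋃ p ∈ s, closedBall (a + (p : E)) (2 * δ) := by
    rintro x ⟨hx1, hx2⟩
    obtain ⟨p, hp, hp2⟩ := hcov (V.orthogonalProjectionOnto (x - a))
      ((V.norm_orthogonalProjectionOnto_apply_le _).trans hx1)
    refine mem_iUnion₂.2 ⟨p, hp, ?_⟩
    rw [mem_closedBall, dist_eq_norm]
    have h3 : ‖V.starProjection (x - a) - (p : E)‖ ≤ δ := hp2
    have e : x - (a + p) = (x - a - V.starProjection (x - a)) + (V.starProjection (x - a) - p) := by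
      abel
    rw [e]
    refine (norm_add_le _ _).trans ?_
    unfold dst at hx2
    linarith
  calc _ ≤ ν (⋃ p ∈ s, closedBall (a + (p : E)) (2 * δ)) := measure_mono hsub
    _ ≤ ∑ p ∈ s, ν (closedBall (a + (p : E)) (2 * δ)) := measure_biUnion_finset_le _ _
    _ ≤ ∑ _p ∈ s, K * ENNReal.ofReal (2 * δ) ^ α :=
        Finset.sum_le_sum fun p _ => h _ _ (by positivity)
    _ = (s.card : ℝ≥0∞) * (K * ENNReal.ofReal (2 * δ) ^ α) := by simp
    _ ≤ _ := by
        gcongr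
        rw [← ENNReal.ofReal_natCast]
        exact ENNReal.ofReal_le_ofReal hs

lemma inv_pow_le_tsum (t r : ℝ) (ht : 0 ≤ t) (hr : 0 < r) (j : ℕ) :
    (ENNReal.ofReal t)⁻¹ ^ j ≤ ENNReal.ofReal r⁻¹ ^ j
      + ∑' u : ℕ, ENNReal.ofReal (2 ^ (u + 1) / r) ^ j * (if t ≤ r / 2 ^ u then 1 else 0) := by
  rcases ht.eq_or_lt with rfl | ht
  · have h1 : ∑' u : ℕ, ENNReal.ofReal (2 ^ (u + 1) / r) ^ j
        * (if (0 : ℝ) ≤ r / 2 ^ u then 1 else 0) = ⊤ := by
      refine top_unique ?_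
      have h2 : ∑' _u : ℕ, ENNReal.ofReal (1 / r) ^ j = ⊤ :=
        ENNReal.tsum_const_eq_top_of_ne_zero
          (pow_ne_zero _ (ENNReal.ofReal_pos.2 (by positivity)).ne')
      rw [← h2]
      refine ENNReal.tsum_le_tsum fun u => ?_
      rw [if_pos (by positivity), mul_one]
      gcongr
      exact one_le_pow₀ (by norm_num)
    rw [h1]; simp
  rcases le_or_gt r t with h | h
  · refine le_trans ?_ le_self_add
    rw [← ENNReal.ofReal_inv_of_pos ht]
    gcongr
  · obtain ⟨u, hu1, hu2⟩ := exists_nat_pow_near_of_lt_one (x := t / r) (y := 1 / 2)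
      (by positivity) (by rw [div_le_one hr]; exact h.le) (by norm_num) (by norm_num)
    refine le_trans ?_ le_add_self
    refine le_trans ?_ (ENNReal.le_tsum u)
    have h1 : t ≤ r / 2 ^ u := by
      rw [div_le_iff₀ hr, one_div, inv_pow] at hu2
      rw [div_eq_mul_inv, mul_comm]; exact hu2
    rw [if_pos h1, mul_one, ← ENNReal.ofReal_inv_of_pos ht]
    gcongr
    rw [lt_div_iff₀ hr, one_div, inv_pow] at hu1
    rw [inv_le_comm₀ ht (by positivity), inv_div, div_eq_mul_inv, mul_comm]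
    exact hu1.le

/-- the constant in the slab integral -/
noncomputable def cOne (α i : ℕ) : ℝ≥0∞ := 2 ^ (2 * α + 2) * 5 ^ i

lemma Frost.lintegral_dst {ν : Measure E} {K : ℝ≥0∞} {j b : ℕ} (h : Frost ν K (j + b))
    (x₀ : E) (r : ℝ) (hr : 0 < r) (hsupp : ν (closedBall x₀ r)ᶜ = 0)
    (a : E) (ha : a ∈ closedBall x₀ r) (V : Submodule ℝ E) (i : ℕ) (hV : finrank ℝ V ≤ i)
    (hb : i + 1 ≤ b) :
    ∫⁻ x, (ENNReal.ofReal (dst V (x - a)))⁻¹ ^ j ∂ν
      ≤ K * ENNReal.ofReal r ^ b * cOne (j + b) i := by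
  have hres : ν = ν.restrict (closedBall x₀ r) :=
    (Measure.restrict_eq_self_of_ae_mem hsupp).symm
  have hm : Measurable fun x : E => dst V (x - a) :=
    ((continuous_dst V).comp (by fun_prop)).measurable
  have hms : ∀ u : ℕ, MeasurableSet {x : E | dst V (x - a) ≤ r / 2 ^ u} :=
    fun u => measurableSet_le hm measurable_const
  have huniv : ν univ ≤ K * ENNReal.ofReal r ^ (j + b) := by
    rw [hres, Measure.restrict_apply_univ]; exact h _ _ hr
  have hslab : ∀ u : ℕ, ν {x : E | dst V (x - a) ≤ r / 2 ^ u}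
      ≤ ENNReal.ofReal ((5 * 2 ^ u) ^ i) * (K * ENNReal.ofReal (2 * (r / 2 ^ u)) ^ (j + b)) := by
    intro u
    rw [hres, Measure.restrict_apply (hms u)]
    refine le_trans (measure_mono ?_) ((h.slab V a (2 * r) (r / 2 ^ u) (by positivity)
      (by positivity)).trans ?_)
    · rintro x ⟨hx1, hx2⟩
      refine ⟨?_, hx1⟩
      rw [mem_closedBall, dist_eq_norm] at hx2 ha
      have e : x - a = (x - x₀) - (a - x₀) := by abel
      rw [e]
      linarith [norm_sub_le (x - x₀) (a - x₀)]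
    · gcongr
      have h1 : (1 : ℝ) ≤ 2 ^ u := one_le_pow₀ (by norm_num)
      have e : 1 + 2 * (2 * r) / (r / 2 ^ u) = 1 + 4 * 2 ^ u := by field_simp; ring
      rw [e]
      calc (1 + 4 * 2 ^ u : ℝ) ^ finrank ℝ V ≤ (5 * 2 ^ u) ^ finrank ℝ V := by
            gcongr; linarith
        _ ≤ (5 * 2 ^ u) ^ i := pow_le_pow_right₀ (by linarith) hV
  have hterm : ∀ u : ℕ, ENNReal.ofReal (2 ^ (u + 1) / r) ^ j
      * ν {x : E | dst V (x - a) ≤ r / 2 ^ u}
      ≤ K * ENNReal.ofReal r ^ b * (2 ^ (2 * (j + b)) * 5 ^ i) * (2⁻¹) ^ u := by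
    intro u
    refine (mul_le_mul_right (hslab u) _).trans ?_
    have hreal : (2 ^ (u + 1) / r) ^ j * (5 * 2 ^ u) ^ i * (2 * (r / 2 ^ u)) ^ (j + b)
        ≤ r ^ b * (2 ^ (2 * (j + b)) * 5 ^ i) * (2⁻¹) ^ u := by
      obtain ⟨c, rfl⟩ := Nat.exists_eq_add_of_le hb
      have h1 : (1 : ℝ) ≤ 2 ^ u := one_le_pow₀ (by norm_num)
      set w : ℝ := 2 ^ u with hw
      have e1 : (2 ^ (u + 1) / r) ^ j * (5 * w) ^ i * (2 * (r / w)) ^ (j + (i + 1 + c))
          = r ^ (i + 1 + c) * (2 ^ (2 * j + (i + 1 + c)) * 5 ^ i) * w⁻¹ * (w⁻¹) ^ c := by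
        rw [pow_succ 2 u, ← hw]
        simp only [div_pow, mul_pow, pow_add, inv_pow, pow_mul', sq]
        field_simp
      rw [e1, inv_pow 2 u, ← hw]
      have h2 : (w⁻¹) ^ c ≤ 1 := pow_le_one₀ (by positivity) (inv_le_one_of_one_le₀ h1)
      have h3 : (2 : ℝ) ^ (2 * j + (i + 1 + c)) ≤ 2 ^ (2 * (j + (i + 1 + c))) :=
        pow_le_pow_right₀ (by norm_num) (by omega)
      calc _ ≤ r ^ (i + 1 + c) * (2 ^ (2 * (j + (i + 1 + c))) * 5 ^ i) * w⁻¹ * 1 := by gcongr
        _ = _ := mul_one _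
    have h4 := ENNReal.ofReal_le_ofReal hreal
    rw [ENNReal.ofReal_mul (by positivity), ENNReal.ofReal_mul (by positivity),
      ENNReal.ofReal_mul (by positivity), ENNReal.ofReal_mul (by positivity),
      ENNReal.ofReal_mul (by positivity), ENNReal.ofReal_pow (by positivity),
      ENNReal.ofReal_pow (p := 2 * (r / 2 ^ u)) (by positivity),
      ENNReal.ofReal_pow (p := r) (by positivity),
      ENNReal.ofReal_pow (p := 2) (by positivity),
      ENNReal.ofReal_pow (p := 5) (by positivity),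
      ENNReal.ofReal_pow (p := 2⁻¹) (by positivity),
      ENNReal.ofReal_inv_of_pos (by norm_num)] at h4
    simp only [ENNReal.ofReal_ofNat] at h4
    calc _ = K * (ENNReal.ofReal (2 ^ (u + 1) / r) ^ j * ENNReal.ofReal ((5 * 2 ^ u) ^ i)
          * ENNReal.ofReal (2 * (r / 2 ^ u)) ^ (j + b)) := by ring
      _ ≤ K * (ENNReal.ofReal r ^ b * (2 ^ (2 * (j + b)) * 5 ^ i) * (2⁻¹) ^ u) := by gcongr
      _ = _ := by ring
  calc _ ≤ ∫⁻ x, (ENNReal.ofReal r⁻¹ ^ j + ∑' u : ℕ, ENNReal.ofReal (2 ^ (u + 1) / r) ^ j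
          * {x : E | dst V (x - a) ≤ r / 2 ^ u}.indicator 1 x) ∂ν := by
        refine lintegral_mono fun x => ?_
        refine (inv_pow_le_tsum _ r (dst_nonneg _ _) hr j).trans (le_of_eq ?_)
        simp only [indicator, mem_ofPred_eq, Pi.one_apply]
    _ = ENNReal.ofReal r⁻¹ ^ j * ν univ + ∑' u : ℕ, ENNReal.ofReal (2 ^ (u + 1) / r) ^ j
          * ν {x : E | dst V (x - a) ≤ r / 2 ^ u} := by
        rw [lintegral_add_left measurable_const, lintegral_const, lintegral_tsum]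
        · congr 1
          refine tsum_congr fun u => ?_
          rw [lintegral_const_mul _ (measurable_one.indicator (hms u)),
            lintegral_indicator_one (hms u)]
        · exact fun u => ((measurable_one.indicator (hms u)).const_mul _).aemeasurable
    _ ≤ ENNReal.ofReal r⁻¹ ^ j * (K * ENNReal.ofReal r ^ (j + b))
          + ∑' u : ℕ, K * ENNReal.ofReal r ^ b * (2 ^ (2 * (j + b)) * 5 ^ i) * (2⁻¹) ^ u := by
        exact add_le_add (by gcongr) (ENNReal.tsum_le_tsum hterm)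
    _ = K * ENNReal.ofReal r ^ b * (1 + 2 ^ (2 * (j + b)) * 5 ^ i * 2) := by
        rw [ENNReal.tsum_mul_left, ENNReal.tsum_geometric, ENNReal.one_sub_inv_two, inv_inv]
        have : ENNReal.ofReal r⁻¹ ^ j * ENNReal.ofReal r ^ j = 1 := by
          rw [← mul_pow, ← ENNReal.ofReal_mul (by positivity), inv_mul_cancel₀ hr.ne']; simp
        calc _ = (ENNReal.ofReal r⁻¹ ^ j * ENNReal.ofReal r ^ j) * (K * ENNReal.ofReal r ^ b)
              + K * ENNReal.ofReal r ^ b * (2 ^ (2 * (j + b)) * 5 ^ i) * 2 := by ring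
          _ = _ := by rw [this]; ring
    _ ≤ _ := by
        gcongr
        unfold cOne
        have h1 : (1 : ℝ≥0∞) ≤ 2 ^ (2 * (j + b)) * 5 ^ i * 2 :=
          one_le_mul (one_le_mul (one_le_pow₀ (by norm_num)) (one_le_pow₀ (by norm_num)))
            (by norm_num)
        calc _ ≤ 2 ^ (2 * (j + b)) * 5 ^ i * 2 + 2 ^ (2 * (j + b)) * 5 ^ i * (2 : ℝ≥0∞) := by gcongr
          _ = _ := by ring

end Crest.Agent.R322
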