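import Crest.Agent.R322.Peel

/-! The one-block estimate. -/

set_option autoImplicit false

namespace Crest.Agent.R322

open MeasureTheory ProbabilityTheory Set Metric Module Filter
open scoped ENNReal RealInnerProductSpace Topology

section generic
variable {E : Type*} [NormedAddCommGroup E] [InnerProductSpace ℝ E] [FiniteDimensional ℝ E]
  [MeasurableSpace E] [BorelSpace E]

/-- law of the observations when the signal has law `ν` -/
noncomputable def Pm (j : ℕ) (ν : Measure E) : Measure (Fin j → E × ℝ) :=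
  (ν.prod (gam E j)).map (fun p => obs p.1 p.2)

instance (j : ℕ) (ν : Measure E) [IsFiniteMeasure ν] : IsFiniteMeasure (Pm j ν) := by
  unfold Pm; infer_instance

lemma Pm_apply {j : ℕ} (ν : Measure E) {A : Set (Fin j → E × ℝ)}
    (hA : MeasurableSet A) :
    Pm j ν A = ∫⁻ x, ∫⁻ G, A.indicator 1 (obs x G) ∂(gam E j) ∂ν := by
  unfold Pm
  rw [← lintegral_indicator_one hA, lintegral_map (measurable_one.indicator hA) measurable_obs,
    lintegral_prod]
  exact ((measurable_one.indicator hA).comp measurable_obs).aemeasurable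

lemma Pm_le_Rad {j : ℕ} (ν : Measure E) [SFinite ν] {δ : ℝ} (hδ : 0 < δ)
    {C : Set (Fin j → E × ℝ)} (hC : MeasurableSet C) :
    Pm j ν C ≤ ∫⁻ ξ, (cthickening δ C).indicator 1 ξ * Rad ν δ ξ ∂(lam E j) := by
  have hT : MeasurableSet (cthickening δ C) := isClosed_cthickening.measurableSet
  have hI : Measurable ((cthickening δ C).indicator (1 : (Fin j → E × ℝ) → ℝ≥0∞)) :=
    measurable_one.indicator hT
  have h1 : ∀ ξ : Fin j → E × ℝ, (cthickening δ C).indicator 1 ξ * Rad ν δ ξ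
      = ∫⁻ x, (cthickening δ C).indicator 1 ξ * ∏ l, ker δ (ξ l) x ∂ν := by
    intro ξ
    rw [lintegral_const_mul _ (by fun_prop)]
    rfl
  simp_rw [h1]
  rw [lintegral_lintegral_swap (Measurable.aemeasurable (by fun_prop)), Pm_apply ν hC]
  refine lintegral_mono fun x => ?_
  rw [lam_split _ (by fun_prop)]
  refine lintegral_mono fun G => ?_
  by_cases hx : obs x G ∈ C
  swap
  · simp [hx]
  rw [indicator_of_mem hx, Pi.one_apply]
  have h2 : ∫⁻ y : Fin j → ℝ, ∏ l, phi δ (y l - ⟪G l, x⟫) = 1 := by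
    rw [volume_pi, lintegral_fin_prod _ (fun l t => phi δ (t - ⟪G l, x⟫)) (fun _ => by fun_prop)]
    simp [lintegral_sub_right_eq_self (phi δ), lintegral_phi hδ]
  rw [← h2]
  refine lintegral_mono fun y => ?_
  by_cases h0 : ∏ l, phi δ (y l - ⟪G l, x⟫) = 0
  · simp [h0]
  have h3 : (fun i => (G i, y i)) ∈ cthickening δ C := by
    refine mem_cthickening_of_dist_le _ (obs x G) δ C hx ?_
    rw [dist_pi_le_iff hδ.le]
    intro l
    have := abs_le_of_phi_ne (Finset.prod_ne_zero_iff.1 h0 l (Finset.mem_univ _))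
    simp only [obs, Prod.dist_eq, dist_self, Real.dist_eq]
    exact max_le hδ.le this
  simp only [indicator_of_mem h3, Pi.one_apply, one_mul]
  rfl

lemma le_add_pow_div (R τ : ℝ≥0∞) (h0 : τ ≠ 0) (h1 : τ ≠ ⊤) (q : ℕ) :
    R ≤ τ + R ^ (q + 1) / τ ^ q := by
  rcases le_total R τ with h | h
  · exact h.trans le_self_add
  · refine le_trans ?_ le_add_self
    rw [ENNReal.le_div_iff_mul_le (Or.inl (pow_ne_zero _ h0)) (Or.inl (ENNReal.pow_ne_top h1)),
      pow_succ']
    gcongr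

lemma Pm_le {j : ℕ} (ν : Measure E) [IsFiniteMeasure ν] (q : ℕ) (B τ : ℝ≥0∞) (h0 : τ ≠ 0)
    (h1 : τ ≠ ⊤) (hB : ∀ δ : ℝ, 0 < δ → ∫⁻ ξ, Rad ν δ ξ ^ (q + 1) ∂(lam E j) ≤ B)
    {A : Set (Fin j → E × ℝ)} (hA : MeasurableSet A) :
    Pm j ν A ≤ τ * lam E j A + B / τ ^ q := by
  rw [hA.measure_eq_iSup_isCompact]
  refine iSup_le fun C => iSup_le fun hCA => iSup_le fun hC => ?_
  have h2 : ∀ δ : ℝ, 0 < δ → Pm j ν C ≤ τ * lam E j (cthickening δ C) + B / τ ^ q := by
    intro δ hδ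
    have hT : MeasurableSet (cthickening δ C) := isClosed_cthickening.measurableSet
    refine (Pm_le_Rad ν hδ hC.measurableSet).trans ?_
    calc _ ≤ ∫⁻ ξ, (τ * (cthickening δ C).indicator 1 ξ + Rad ν δ ξ ^ (q + 1) * (τ ^ q)⁻¹)
          ∂(lam E j) := by
          refine lintegral_mono fun ξ => ?_
          by_cases hξ : ξ ∈ cthickening δ C
          · simp only [indicator_of_mem hξ, Pi.one_apply, one_mul, mul_one]
            exact le_add_pow_div _ _ h0 h1 q
          · simp [hξ]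
      _ = τ * lam E j (cthickening δ C)
          + (∫⁻ ξ, Rad ν δ ξ ^ (q + 1) ∂(lam E j)) * (τ ^ q)⁻¹ := by
          rw [lintegral_add_left ((measurable_one.indicator hT).const_mul _),
            lintegral_const_mul _ (measurable_one.indicator hT), lintegral_indicator_one hT,
            lintegral_mul_const _ (by fun_prop)]
      _ ≤ _ := by
          rw [div_eq_mul_inv]
          gcongr
          exact hB δ hδ
  have h3 : Tendsto (fun δ => τ * lam E j (cthickening δ C) + B / τ ^ q) (𝓝[>] 0)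
      (𝓝 (τ * lam E j C + B / τ ^ q)) := by
    refine Tendsto.add_const _ (ENNReal.Tendsto.const_mul ?_ (Or.inr h1))
    exact (tendsto_measure_cthickening_of_isCompact hC).mono_left nhdsWithin_le_nhds
  have h4 : Pm j ν C ≤ τ * lam E j C + B / τ ^ q :=
    ge_of_tendsto h3 (eventually_nhdsWithin_of_forall h2)
  refine h4.trans ?_
  gcongr

/-- the region containing all observations of signals in a ball -/
def Omega (j : ℕ) (x₀ : E) (r : ℝ) : Set (Fin j → E × ℝ) :=
  {ξ | ∑ i, ((ξ i).2 - ⟪(ξ i).1, x₀⟫) ^ 2 ≤ r * ‖∑ i, ((ξ i).2 - ⟪(ξ i).1, x₀⟫) • (ξ i).1‖}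

lemma measurableSet_Omega (j : ℕ) (x₀ : E) (r : ℝ) : MeasurableSet (Omega j x₀ r) :=
  measurableSet_le (by fun_prop) (by fun_prop)

omit [FiniteDimensional ℝ E] [MeasurableSpace E] [BorelSpace E] in
lemma obs_mem_Omega {j : ℕ} {x₀ x : E} {r : ℝ} (hx : x ∈ closedBall x₀ r) (G : Fin j → E) :
    obs x G ∈ Omega j x₀ r := by
  simp only [Omega, obs, mem_ofPred_eq, ← inner_sub_right]
  rw [mem_closedBall, dist_eq_norm] at hx
  calc _ = ⟪∑ i, ⟪G i, x - x₀⟫ • G i, x - x₀⟫ := by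
        simp only [sum_inner, real_inner_smul_left, sq]
    _ ≤ ‖∑ i, ⟪G i, x - x₀⟫ • G i‖ * ‖x - x₀‖ := real_inner_le_norm _ _
    _ ≤ _ := by rw [mul_comm]; gcongr

lemma lam_Omega (j : ℕ) (x₀ : E) {r : ℝ} (hr : 0 < r) (Cg : ℝ≥0∞) (hCg1 : 1 ≤ Cg)
    (hCg : ∫⁻ g, ENNReal.ofReal (Real.exp (‖g‖ ^ 2 / 4)) ∂(stdGaussian E) ≤ Cg) :
    lam E j (Omega j x₀ r) ≤ Cg * 4 ^ j * ENNReal.ofReal r ^ j := by
  have hO := measurableSet_Omega j x₀ r
  let W : Set ((Fin j → E) × (Fin j → ℝ)) := {p | ∑ i, p.2 i ^ 2 ≤ r * ‖∑ i, p.2 i • p.1 i‖}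
  have hW : MeasurableSet W := measurableSet_le (by fun_prop) (by fun_prop)
  rw [← lintegral_indicator_one hO, lam_split _ (measurable_one.indicator hO)]
  have h1 : ∀ G : Fin j → E, ∫⁻ y : Fin j → ℝ,
      (Omega j x₀ r).indicator (1 : (Fin j → E × ℝ) → ℝ≥0∞) (fun i => (G i, y i))
      = ∫⁻ u : Fin j → ℝ, W.indicator 1 (G, u) := by
    intro G
    rw [← lintegral_add_right_eq_self _ (fun i => ⟪G i, x₀⟫)]
    refine lintegral_congr fun u => ?_
    simp [indicator, Omega, W]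
  simp_rw [h1]
  rw [lintegral_lintegral_swap (f := fun G u => W.indicator (1 : (Fin j → E) × (Fin j → ℝ) → ℝ≥0∞) (G, u))
    (measurable_one.indicator hW).aemeasurable]
  have h2 : ∀ u : Fin j → ℝ, ∫⁻ G, W.indicator (1 : (Fin j → E) × (Fin j → ℝ) → ℝ≥0∞) (G, u) ∂(gam E j)
      ≤ Cg * ∏ i, ENNReal.ofReal (Real.exp (-(1 / (4 * r ^ 2)) * u i ^ 2)) := by
    intro u
    rw [← ENNReal.ofReal_prod_of_nonneg (fun i _ => (Real.exp_pos _).le), ← Real.exp_sum,
      ← Finset.mul_sum]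
    have hs0 : 0 ≤ ∑ i, u i ^ 2 := Finset.sum_nonneg fun i _ => sq_nonneg _
    rcases hs0.eq_or_lt with hs | hs
    · rw [← hs, mul_zero, Real.exp_zero, ENNReal.ofReal_one, mul_one]
      refine le_trans ?_ hCg1
      calc ∫⁻ G, W.indicator (1 : (Fin j → E) × (Fin j → ℝ) → ℝ≥0∞) (G, u) ∂(gam E j)
          ≤ ∫⁻ _G, 1 ∂(gam E j) := lintegral_mono fun G => by
            by_cases hG : (G, u) ∈ W <;> simp [hG]
        _ = 1 := by simp
    set s := √(∑ i, u i ^ 2) with hsdef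
    have hsp : 0 < s := Real.sqrt_pos.2 hs
    have hss : s ^ 2 = ∑ i, u i ^ 2 := Real.sq_sqrt hs0
    have ha : ∑ i, (u i / s) ^ 2 = 1 := by
      simp_rw [div_pow]
      rw [← Finset.sum_div, ← hss, div_self (by positivity)]
    have hmap := map_sum (E := E) _ ha
    rw [← hmap, lintegral_map (by fun_prop) (by fun_prop)] at hCg
    refine le_trans ?_ (mul_le_mul_left hCg _)
    rw [← lintegral_mul_const _ (by fun_prop)]
    refine lintegral_mono fun G => ?_
    by_cases hG : (G, u) ∈ W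
    swap
    · simp [hG]
    rw [indicator_of_mem hG, Pi.one_apply, ← ENNReal.ofReal_mul (Real.exp_pos _).le,
      ← Real.exp_add, ENNReal.one_le_ofReal, Real.one_le_exp_iff]
    have h3 : ∑ i, u i • G i = s • ∑ i, (u i / s) • G i := by
      rw [Finset.smul_sum]
      refine Finset.sum_congr rfl fun i _ => ?_
      rw [smul_smul, mul_div_cancel₀ _ hsp.ne']
    have h4 : s ^ 2 ≤ r * (s * ‖∑ i, (u i / s) • G i‖) := by
      have : ∑ i, u i ^ 2 ≤ r * ‖∑ i, u i • G i‖ := hG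
      rw [h3, norm_smul, Real.norm_eq_abs, abs_of_pos hsp, ← hss] at this
      exact this
    set z := ‖∑ i, (u i / s) • G i‖
    have h5 : s ≤ r * z := by nlinarith
    have h6 : s ^ 2 ≤ (r * z) ^ 2 := by gcongr
    rw [← hss]
    have h7 : 1 / (4 * r ^ 2) * s ^ 2 ≤ z ^ 2 / 4 := by
      rw [one_div, inv_mul_le_iff₀ (by positivity)]
      nlinarith
    linarith
  refine (lintegral_mono h2).trans ?_
  rw [lintegral_const_mul _ (by fun_prop), volume_pi,
    lintegral_fin_prod _ (fun _ t => ENNReal.ofReal (Real.exp (-(1 / (4 * r ^ 2)) * t ^ 2)))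
      (fun _ => by fun_prop), mul_assoc, ← mul_pow]
  gcongr
  rw [Finset.prod_const, Finset.card_univ, Fintype.card_fin]
  gcongr
  rw [← ofReal_integral_eq_lintegral_ofReal (integrable_exp_neg_mul_sq (by positivity))
    (Eventually.of_forall fun t => by positivity), integral_gaussian]
  have h8 : √(Real.pi / (1 / (4 * r ^ 2))) ≤ 4 * r := by
    rw [Real.sqrt_le_iff]
    refine ⟨by positivity, ?_⟩
    rw [div_div_eq_mul_div, div_one]
    nlinarith [Real.pi_le_four, sq_nonneg r]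
  refine (ENNReal.ofReal_le_ofReal h8).trans (le_of_eq ?_)
  rw [ENNReal.ofReal_mul (by norm_num)]
  simp

theorem block {j b i : ℕ} (hb : i + 1 ≤ b) (μ : Measure E) [IsFiniteMeasure μ]
    {S : Type*} [Countable S] [MeasurableSpace S] [DiscreteMeasurableSpace S]
    (F : Finset S) (Ψ : (Fin j → E × ℝ) → S) (hΨ : Measurable Ψ) (hF : ∀ ξ, Ψ ξ ∈ F)
    (g : S → E → ℝ≥0∞) (hg : ∀ m, Measurable (g m)) (hg1 : ∀ m x, g m x ≤ 1)
    (K : ℝ≥0∞) (hK0 : K ≠ 0) (hK : K ≠ ⊤) (hfr : ∀ m, Frost (μ.withDensity (g m)) K (j + b))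
    (s : ℝ≥0∞) (hs0 : s ≠ 0) (hs : s ≠ ⊤) (hcard : (F.card : ℝ≥0∞) ≤ s ^ (i + 1))
    (Cg : ℝ≥0∞) (hCg1 : 1 ≤ Cg)
    (hCg : ∫⁻ g, ENNReal.ofReal (Real.exp (‖g‖ ^ 2 / 4)) ∂(stdGaussian E) ≤ Cg) :
    Frost (μ.withDensity fun x => ∫⁻ G, g (Ψ (obs x G)) x ∂(gam E j))
      (K * (1 + s * cOne (j + b) i * (Cg * 4 ^ j))) (j + b) := by
  classical
  intro x₀ r hr
  have hB : MeasurableSet (closedBall x₀ r) := measurableSet_closedBall
  let ν : S → Measure E := fun m => (μ.withDensity (g m)).restrict (closedBall x₀ r)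
  have hfin : ∀ m, IsFiniteMeasure (ν m) := by
    intro m
    have : IsFiniteMeasure (μ.withDensity (g m)) := by
      refine isFiniteMeasure_withDensity (ne_top_of_le_ne_top (measure_ne_top μ univ) ?_)
      calc _ ≤ ∫⁻ _x, 1 ∂μ := lintegral_mono (hg1 m)
        _ = _ := by simp
    infer_instance
  have hνfr : ∀ m, Frost (ν m) K (j + b) := fun m z ρ hρ =>
    (Measure.restrict_le_self _).trans (hfr m z ρ hρ)
  have hsupp : ∀ m, ν m (closedBall x₀ r)ᶜ = 0 := fun m => by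
    simp [ν, Measure.restrict_apply hB.compl]
  have huniv : ∀ m, ν m univ ≤ K * ENNReal.ofReal r ^ (j + b) := fun m => by
    simp only [ν, Measure.restrict_apply_univ]; exact hfr m _ _ hr
  let A : S → Set (Fin j → E × ℝ) := fun m => Ψ ⁻¹' {m} ∩ Omega j x₀ r
  have hA : ∀ m, MeasurableSet (A m) := fun m =>
    (hΨ (MeasurableSet.of_discrete)).inter (measurableSet_Omega j x₀ r)
  set D := K * ENNReal.ofReal r ^ b * cOne (j + b) i with hDdef
  have hr0 : ENNReal.ofReal r ≠ 0 := (ENNReal.ofReal_pos.2 hr).ne'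
  have hc0 : cOne (j + b) i ≠ 0 := by unfold cOne; simp
  have hc1 : cOne (j + b) i ≠ ⊤ := by
    unfold cOne; exact ENNReal.mul_ne_top (ENNReal.pow_ne_top (by simp)) (ENNReal.pow_ne_top (by simp))
  have hD0 : D ≠ 0 := mul_ne_zero (mul_ne_zero hK0 (pow_ne_zero _ hr0)) hc0
  have hD1 : D ≠ ⊤ :=
    ENNReal.mul_ne_top (ENNReal.mul_ne_top hK (ENNReal.pow_ne_top ENNReal.ofReal_ne_top)) hc1
  have hPm : ∀ m, Pm j (ν m) (A m) ≤ D * s * lam E j (A m)
      + D ^ (i + 1) * (K * ENNReal.ofReal r ^ (j + b)) / (D * s) ^ (i + 1) := by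
    intro m
    have := hfin m
    refine Pm_le (ν m) (i + 1) _ _ (mul_ne_zero hD0 hs0) (ENNReal.mul_ne_top hD1 hs) ?_ (hA m)
    intro δ hδ
    refine (lintegral_Rad_pow (ν m) hδ i D ?_).trans (by gcongr; exact huniv m)
    have hae : ∀ᵐ a ∂(ν m), a ∈ closedBall x₀ r := hsupp m
    filter_upwards [hae] with a ha V hV
    exact (hνfr m).lintegral_dst x₀ r hr (hsupp m) a ha V i hV hb
  have hmain : μ.withDensity (fun x => ∫⁻ G, g (Ψ (obs x G)) x ∂(gam E j)) (closedBall x₀ r)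
      = ∑ m ∈ F, Pm j (ν m) (A m) := by
    rw [withDensity_apply _ hB]
    have h1 : ∀ m, Pm j (ν m) (A m) = ∫⁻ x in closedBall x₀ r,
        ∫⁻ G, g m x * (A m).indicator 1 (obs x G) ∂(gam E j) ∂μ := by
      intro m
      have hI : Measurable fun p : E × (Fin j → E) =>
          (A m).indicator (1 : (Fin j → E × ℝ) → ℝ≥0∞) (obs p.1 p.2) :=
        (measurable_one.indicator (hA m)).comp measurable_obs
      rw [Pm_apply _ (hA m)]
      simp only [ν]
      rw [restrict_withDensity hB, lintegral_withDensity_eq_lintegral_mul _ (hg m)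
        hI.lintegral_prod_right']
      refine lintegral_congr fun x => ?_
      have hI' : Measurable fun G : Fin j → E =>
          (A m).indicator (1 : (Fin j → E × ℝ) → ℝ≥0∞) (obs x G) :=
        hI.comp measurable_prodMk_left
      rw [lintegral_const_mul _ hI']
      rfl
    simp_rw [h1]
    have hI : ∀ m, Measurable fun p : E × (Fin j → E) =>
        g m p.1 * (A m).indicator (1 : (Fin j → E × ℝ) → ℝ≥0∞) (obs p.1 p.2) := fun m =>
      ((hg m).comp measurable_fst).mul ((measurable_one.indicator (hA m)).comp measurable_obs)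
    rw [← lintegral_finsetSum _ (fun m _ => (hI m).lintegral_prod_right')]
    refine setLIntegral_congr_fun hB fun x hx => ?_
    simp only
    have hI' : ∀ m, Measurable fun G : Fin j → E =>
        g m x * (A m).indicator (1 : (Fin j → E × ℝ) → ℝ≥0∞) (obs x G) :=
      fun m => (hI m).comp (measurable_prodMk_left (x := x))
    rw [← lintegral_finsetSum _ (fun m _ => hI' m)]
    refine lintegral_congr fun G => ?_
    rw [Finset.sum_eq_single_of_mem _ (hF (obs x G))]
    · rw [indicator_of_mem (show obs x G ∈ A (Ψ (obs x G)) from ⟨rfl, obs_mem_Omega hx G⟩)]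
      simp
    · intro m _ hm
      rw [indicator_of_notMem, mul_zero]
      exact fun h => hm (h.1.symm)
  have hsum : ∑ m ∈ F, lam E j (A m) ≤ Cg * 4 ^ j * ENNReal.ofReal r ^ j := by
    rw [← measure_biUnion_finset _ (fun m _ => hA m)]
    · exact (measure_mono (iUnion₂_subset fun m _ => inter_subset_right)).trans
        (lam_Omega j x₀ hr Cg hCg1 hCg)
    · intro m _ m' _ hmm
      exact Set.disjoint_left.2 fun ξ h1 h2 => hmm (h1.1.symm.trans h2.1)
  have hq : D ^ (i + 1) * (K * ENNReal.ofReal r ^ (j + b)) / (D * s) ^ (i + 1)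
      = K * ENNReal.ofReal r ^ (j + b) / s ^ (i + 1) := by
    rw [mul_pow D s, ENNReal.mul_div_mul_left _ _ (pow_ne_zero _ hD0) (ENNReal.pow_ne_top hD1)]
  rw [hmain]
  calc _ ≤ ∑ m ∈ F, (D * s * lam E j (A m) + K * ENNReal.ofReal r ^ (j + b) / s ^ (i + 1)) :=
        Finset.sum_le_sum fun m _ => hq ▸ hPm m
    _ = D * s * ∑ m ∈ F, lam E j (A m)
        + (F.card : ℝ≥0∞) * (K * ENNReal.ofReal r ^ (j + b) / s ^ (i + 1)) := by
        rw [Finset.sum_add_distrib, Finset.mul_sum, Finset.sum_const, nsmul_eq_mul]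
    _ ≤ D * s * (Cg * 4 ^ j * ENNReal.ofReal r ^ j)
        + s ^ (i + 1) * (K * ENNReal.ofReal r ^ (j + b) / s ^ (i + 1)) := by gcongr
    _ = _ := by
        rw [ENNReal.mul_div_cancel (pow_ne_zero _ hs0) (ENNReal.pow_ne_top hs), hDdef]
        ring

end generic

end Crest.Agent.R322
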