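import Mathlib

/-! Gaussian facts for row 322. -/

set_option autoImplicit false

namespace Crest.Agent.R322

open MeasureTheory ProbabilityTheory Set
open scoped ENNReal RealInnerProductSpace

/-- Tonelli for a product of one-variable functions. -/
lemma lintegral_fin_prod {n : ℕ} {X : Type*} [MeasurableSpace X] (μ : Measure X) [SigmaFinite μ]
    (f : Fin n → X → ℝ≥0∞) (hf : ∀ i, Measurable (f i)) :
    ∫⁻ x : Fin n → X, ∏ i, f i (x i) ∂(Measure.pi fun _ => μ) = ∏ i, ∫⁻ x, f i x ∂μ := by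
  induction n with
  | zero => simp
  | succ n ih =>
    have hp := (measurePreserving_piFinSuccAbove (fun _ : Fin (n+1) => μ) 0).symm
    rw [← hp.lintegral_comp_emb (MeasurableEquiv.measurableEmbedding _)]
    simp_rw [MeasurableEquiv.piFinSuccAbove_symm_apply, Fin.insertNthEquiv,
      Fin.prod_univ_succ, Fin.insertNth_zero, Equiv.coe_fn_mk, Fin.cons_succ,
      cast_eq, Fin.cons_zero]
    rw [lintegral_prod_mul (f := f 0) (g := fun y : Fin n → X => ∏ i, f i.succ (y i))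
      (hf 0).aemeasurable, ih _ (fun i => hf _)]
    exact (Finset.measurable_prod _ fun i _ => (hf _).comp (measurable_pi_apply i)).aemeasurable

/-- Tonelli on the first coordinate. -/
lemma lintegral_fin_succ {n : ℕ} {X : Type*} [MeasurableSpace X] (μ : Measure X) [SigmaFinite μ]
    (f : (Fin (n+1) → X) → ℝ≥0∞) (hf : Measurable f) :
    ∫⁻ x, f x ∂(Measure.pi fun _ => μ)
      = ∫⁻ a, ∫⁻ y : Fin n → X, f (Fin.cons a y) ∂(Measure.pi fun _ => μ) ∂μ := by
  have hp := (measurePreserving_piFinSuccAbove (fun _ : Fin (n+1) => μ) 0).symm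
  rw [← hp.lintegral_comp_emb (MeasurableEquiv.measurableEmbedding _)]
  rw [lintegral_prod]
  · simp_rw [MeasurableEquiv.piFinSuccAbove_symm_apply, Fin.insertNthEquiv,
      Fin.insertNth_zero, Equiv.coe_fn_mk, cast_eq]
  · exact (hf.comp (MeasurableEquiv.measurable _)).aemeasurable

variable {E : Type*} [NormedAddCommGroup E] [InnerProductSpace ℝ E] [FiniteDimensional ℝ E]
  [MeasurableSpace E] [BorelSpace E]

/-- Resampling the coordinate of a standard Gaussian vector along a unit vector. -/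
lemma map_resample (n : E) (hn : ‖n‖ = 1) :
    ((stdGaussian E).prod (gaussianReal 0 1)).map
      (fun p : E × ℝ => p.1 - ⟪n, p.1⟫ • n + p.2 • n) = stdGaussian E := by
  have hm : Measurable (fun p : E × ℝ => p.1 - ⟪n, p.1⟫ • n + p.2 • n) := by fun_prop
  apply Measure.ext_of_charFun
  ext ξ
  rw [charFun_apply, integral_map hm.aemeasurable (Measurable.aestronglyMeasurable (by fun_prop))]
  have h1 : ∀ p : E × ℝ, Complex.exp ((⟪p.1 - ⟪n, p.1⟫ • n + p.2 • n, ξ⟫ : ℝ) * Complex.I)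
      = Complex.exp ((⟪p.1, ξ - ⟪n, ξ⟫ • n⟫ : ℝ) * Complex.I)
        * Complex.exp ((⟪n, ξ⟫ : ℝ) * (p.2 : ℝ) * Complex.I) := by
    intro p
    rw [← Complex.exp_add]
    congr 1
    simp only [inner_add_left, inner_sub_left, inner_sub_right, real_inner_smul_left,
      real_inner_smul_right, real_inner_comm n p.1]
    push_cast
    ring
  simp_rw [h1]
  rw [integral_prod_mul (f := fun g : E => Complex.exp ((⟪g, ξ - ⟪n, ξ⟫ • n⟫ : ℝ) * Complex.I))
    (g := fun t : ℝ => Complex.exp ((⟪n, ξ⟫ : ℝ) * (t : ℝ) * Complex.I)),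
    ← charFun_apply, ← charFun_apply_real, charFun_stdGaussian, charFun_stdGaussian,
    charFun_gaussianReal, ← Complex.exp_add]
  congr 1
  have h2 : ‖ξ - ⟪n, ξ⟫ • n‖ ^ 2 = ‖ξ‖ ^ 2 - ⟪n, ξ⟫ ^ 2 := by
    rw [norm_sub_sq_real, real_inner_smul_right, norm_smul, hn, real_inner_comm n ξ]
    simp only [Real.norm_eq_abs, mul_one, sq_abs]
    ring
  have h3 : ((‖ξ - ⟪n, ξ⟫ • n‖ : ℝ) : ℂ) ^ 2 = (‖ξ‖ : ℂ) ^ 2 - (⟪n, ξ⟫ : ℝ) ^ 2 := by
    exact_mod_cast h2
  rw [h3]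
  simp only [Complex.ofReal_zero, mul_zero, zero_mul, NNReal.coe_one, Complex.ofReal_one, one_mul,
    zero_sub]
  ring

/-- A unit combination of independent standard Gaussian vectors is standard Gaussian. -/
lemma map_sum {j : ℕ} (a : Fin j → ℝ) (ha : ∑ i, a i ^ 2 = 1) :
    (Measure.pi fun _ : Fin j => stdGaussian E).map (fun G => ∑ i, a i • G i)
      = stdGaussian E := by
  have hm : Measurable (fun G : Fin j → E => ∑ i, a i • G i) := by fun_prop
  apply Measure.ext_of_charFun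
  ext ξ
  rw [charFun_apply, integral_map hm.aemeasurable (Measurable.aestronglyMeasurable (by fun_prop))]
  have h1 : ∀ G : Fin j → E, Complex.exp ((⟪∑ i, a i • G i, ξ⟫ : ℝ) * Complex.I)
      = ∏ i, Complex.exp ((⟪G i, a i • ξ⟫ : ℝ) * Complex.I) := by
    intro G
    rw [← Complex.exp_sum]
    congr 1
    simp only [sum_inner, real_inner_smul_left, real_inner_smul_right]
    push_cast
    rw [Finset.sum_mul]
  simp_rw [h1]
  rw [integral_fintype_prod_eq_prod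
    (f := fun i (g : E) => Complex.exp ((⟪g, a i • ξ⟫ : ℝ) * Complex.I))]
  simp_rw [← charFun_apply, charFun_stdGaussian]
  rw [← Complex.exp_sum]
  congr 1
  have h2 : ∑ i, ‖a i • ξ‖ ^ 2 = ‖ξ‖ ^ 2 := by
    simp_rw [norm_smul, mul_pow, Real.norm_eq_abs, sq_abs]
    rw [← Finset.sum_mul, ha, one_mul]
  have h3 : ∑ i, ((‖a i • ξ‖ : ℝ) : ℂ) ^ 2 = (‖ξ‖ : ℂ) ^ 2 := by exact_mod_cast h2
  rw [← h3, ← Finset.sum_div, Finset.sum_neg_distrib]

lemma lintegral_gaussianReal_le (f : ℝ → ℝ≥0∞) (hf : Measurable f) :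
    ∫⁻ t, f t ∂(gaussianReal 0 1) ≤ ∫⁻ t, f t := by
  rw [gaussianReal_of_var_ne_zero 0 one_ne_zero,
    lintegral_withDensity_eq_lintegral_mul _ (measurable_gaussianPDF _ _) hf]
  refine lintegral_mono fun t => ?_
  have : gaussianPDF 0 1 t ≤ 1 := by
    rw [gaussianPDF, ENNReal.ofReal_le_one, gaussianPDFReal]
    have h1 : 1 ≤ √(2 * Real.pi * (1 : NNReal)) := by
      rw [Real.one_le_sqrt]; simp only [NNReal.coe_one, mul_one]; linarith [Real.pi_gt_three]
    have h2 : Real.exp (-(t - 0) ^ 2 / (2 * (1 : NNReal))) ≤ 1 := by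
      rw [Real.exp_le_one_iff]; simp only [NNReal.coe_one, mul_one]; nlinarith [sq_nonneg (t - 0)]
    have h3 : (√(2 * Real.pi * (1 : NNReal)))⁻¹ ≤ 1 := inv_le_one_of_one_le₀ h1
    exact mul_le_one₀ h3 (Real.exp_pos _).le h2
  simpa using mul_le_mul_left this (f t)

lemma lintegral_affine (ψ : ℝ → ℝ≥0∞) (hψ : Measurable ψ) (c a : ℝ) (ha : a ≠ 0) :
    ∫⁻ t, ψ (c + t * a) = ENNReal.ofReal |a|⁻¹ * ∫⁻ t, ψ t := by
  have h1 : ∫⁻ t, ψ (c + t * a) = ∫⁻ t, ψ (c + t) ∂(Measure.map (fun t => t * a) volume) := by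
    rw [lintegral_map (by fun_prop) (by fun_prop)]
  rw [h1, Real.map_volume_mul_right ha, lintegral_smul_measure, lintegral_add_left_eq_self,
    abs_inv]
  rfl

/-- Peeling one direction off a Gaussian integral. -/
lemma gauss_peel (n : E) (hn : ‖n‖ = 1) (F : E → ℝ≥0∞) (hF : Measurable F)
    (hinv : ∀ (g : E) (t : ℝ), F (g + t • n) = F g) (ψ : ℝ → ℝ≥0∞) (hψ : Measurable ψ)
    (hψ1 : ∫⁻ t, ψ t ≤ 1) (v : E) (hv : ⟪n, v⟫ ≠ 0) :
    ∫⁻ g, F g * ψ ⟪g, v⟫ ∂(stdGaussian E)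
      ≤ ENNReal.ofReal |⟪n, v⟫|⁻¹ * ∫⁻ g, F g ∂(stdGaussian E) := by
  have hm : Measurable (fun p : E × ℝ => p.1 - ⟪n, p.1⟫ • n + p.2 • n) := by fun_prop
  have hm2 : Measurable (fun g : E => F g * ψ ⟪g, v⟫) := by fun_prop
  conv_lhs => rw [← map_resample n hn]
  rw [lintegral_map hm2 hm, lintegral_prod _ (Measurable.aemeasurable (by fun_prop)),
    ← lintegral_const_mul _ hF]
  refine lintegral_mono fun g => ?_
  have h1 : ∀ t : ℝ, F (g - ⟪n, g⟫ • n + t • n) = F g := by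
    intro t
    have : g - ⟪n, g⟫ • n + t • n = g + (t - ⟪n, g⟫) • n := by rw [sub_smul]; abel
    rw [this, hinv]
  simp only [h1, inner_add_left, real_inner_smul_left]
  rw [lintegral_const_mul _ (by fun_prop), mul_comm]
  gcongr
  calc ∫⁻ t, ψ (⟪g - ⟪n, g⟫ • n, v⟫ + t * ⟪n, v⟫) ∂(gaussianReal 0 1)
      ≤ ∫⁻ t, ψ (⟪g - ⟪n, g⟫ • n, v⟫ + t * ⟪n, v⟫) := lintegral_gaussianReal_le _ (by fun_prop)
    _ = ENNReal.ofReal |⟪n, v⟫|⁻¹ * ∫⁻ t, ψ t := lintegral_affine ψ hψ _ _ hv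
    _ ≤ ENNReal.ofReal |⟪n, v⟫|⁻¹ * 1 := by gcongr
    _ = _ := mul_one _

lemma lintegral_exp_sq_real :
    ∫⁻ t, ENNReal.ofReal (Real.exp (t ^ 2 / 4)) ∂(gaussianReal 0 1) ≤ 2 := by
  rw [gaussianReal_of_var_ne_zero 0 one_ne_zero,
    lintegral_withDensity_eq_lintegral_mul _ (measurable_gaussianPDF _ _) (by fun_prop)]
  have h1 : ∀ t : ℝ, (gaussianPDF 0 1 * fun t => ENNReal.ofReal (Real.exp (t ^ 2 / 4))) t
      = ENNReal.ofReal ((√(2 * Real.pi))⁻¹ * Real.exp (-(1/4) * t ^ 2)) := by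
    intro t
    simp only [Pi.mul_apply, gaussianPDF, gaussianPDFReal]
    rw [← ENNReal.ofReal_mul (by positivity), mul_assoc, ← Real.exp_add]
    congr 3
    · simp
    · simp only [NNReal.coe_one]; ring
  simp_rw [h1]
  rw [← ofReal_integral_eq_lintegral_ofReal
    ((integrable_exp_neg_mul_sq (by norm_num)).const_mul _)
    (Filter.Eventually.of_forall fun t => by positivity), integral_const_mul, integral_gaussian]
  have h2 : (√(2 * Real.pi))⁻¹ * √(Real.pi / (1/4)) ≤ 2 := by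
    have hp := Real.pi_pos
    rw [inv_mul_le_iff₀ (by positivity), Real.sqrt_le_iff]
    refine ⟨by positivity, ?_⟩
    rw [mul_pow, Real.sq_sqrt (by positivity)]
    nlinarith
  calc _ ≤ ENNReal.ofReal 2 := ENNReal.ofReal_le_ofReal h2
    _ = 2 := by simp

lemma lintegral_exp_sq (d : ℕ) :
    ∫⁻ g, ENNReal.ofReal (Real.exp (‖g‖ ^ 2 / 4)) ∂(stdGaussian (EuclideanSpace ℝ (Fin d)))
      ≤ 2 ^ d := by
  rw [← map_pi_eq_stdGaussian, lintegral_map (by fun_prop) (by fun_prop)]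
  have h1 : ∀ x : Fin d → ℝ, ENNReal.ofReal (Real.exp (‖WithLp.toLp 2 x‖ ^ 2 / 4))
      = ∏ i, ENNReal.ofReal (Real.exp (x i ^ 2 / 4)) := by
    intro x
    rw [← ENNReal.ofReal_prod_of_nonneg (fun i _ => (Real.exp_pos _).le), ← Real.exp_sum,
      EuclideanSpace.real_norm_sq_eq, Finset.sum_div]
  simp_rw [h1]
  rw [lintegral_fin_prod _ (fun _ t => ENNReal.ofReal (Real.exp (t ^ 2 / 4))) (fun _ => by fun_prop)]
  calc _ ≤ ∏ _i : Fin d, (2 : ℝ≥0∞) := Finset.prod_le_prod' fun i _ => lintegral_exp_sq_real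
    _ = 2 ^ d := by simp

end Crest.Agent.R322
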