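import Crest.Agent.R322.Block

/-! Iterating the one-block estimate along a finite-state process. -/

set_option autoImplicit false

namespace Crest.Agent.R322

open MeasureTheory ProbabilityTheory Set Metric Module
open scoped ENNReal RealInnerProductSpace

section iter
variable {S Z : Type*}

/-- run `n` steps from time `t` -/
def iter (f : ℕ → S → Z → S) : (n : ℕ) → ℕ → S → (Fin n → Z) → S
  | 0, _, st, _ => st
  | n + 1, t, st, ξ => iter f n (t + 1) (f t st (ξ 0)) (Fin.tail ξ)

lemma foldl_eq_iter (f : ℕ → S → Z → S) (n : ℕ) : ∀ (t : ℕ) (st : S) (ξ : Fin n → Z),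
    (List.finRange n).foldl (fun st i => f (t + i.val) st (ξ i)) st = iter f n t st ξ := by
  induction n with
  | zero => intro t st ξ; simp [iter]
  | succ n ih =>
    intro t st ξ
    rw [List.finRange_succ, List.foldl_cons, List.foldl_map, iter, ← ih]
    simp only [Fin.val_zero, add_zero, Fin.val_succ, Fin.tail]
    congr 1
    funext st i
    congr 1
    omega

variable [Countable S] [MeasurableSpace S] [DiscreteMeasurableSpace S] [MeasurableSpace Z]

lemma measurable_iter {X Y : Type*} [MeasurableSpace X] [MeasurableSpace Y]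
    (F : X → ℕ → S → Z → S) (hF : ∀ t st, Measurable fun p : X × Z => F p.1 t st p.2)
    (x : Y → X) (hx : Measurable x) (n : ℕ) :
    ∀ (t : ℕ) (st : Y → S) (ξ : Y → Fin n → Z), Measurable st → Measurable ξ →
      Measurable fun y => iter (F (x y)) n t (st y) (ξ y) := by
  induction n with
  | zero => intro t st ξ hst _; exact hst
  | succ n ih =>
    intro t st ξ hst hξ
    refine ih (t + 1) (fun y => F (x y) t (st y) (ξ y 0)) (fun y => Fin.tail (ξ y)) ?_ ?_
    · have h1 : Measurable fun q : (X × Z) × S => F q.1.1 t q.2 q.1.2 :=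
        measurable_from_prod_countable_left (fun st => hF t st)
      exact h1.comp (f := fun y => ((x y, ξ y 0), st y)) (by fun_prop)
    · unfold Fin.tail; fun_prop

lemma measurable_iter' {Y : Type*} [MeasurableSpace Y]
    (f : ℕ → S → Z → S) (hf : ∀ t st, Measurable (f t st)) (n t : ℕ)
    (st : Y → S) (ξ : Y → Fin n → Z) (hst : Measurable st) (hξ : Measurable ξ) :
    Measurable fun y => iter f n t (st y) (ξ y) :=
  measurable_iter (X := Unit) (fun _ => f) (fun t st => (hf t st).comp measurable_snd)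
    (fun _ => ()) measurable_const n t st ξ hst hξ

end iter

variable {E : Type*} [NormedAddCommGroup E] [InnerProductSpace ℝ E] [FiniteDimensional ℝ E]
  [MeasurableSpace E] [BorelSpace E]
variable {S : Type*} [Countable S] [MeasurableSpace S] [DiscreteMeasurableSpace S]

/-- value function -/
noncomputable def val (f : ℕ → S → E × ℝ → S) (w : S → E → ℝ≥0∞) (n t : ℕ) (st : S) (x : E) :
    ℝ≥0∞ :=
  ∫⁻ G, w (iter f n t st (obs x G)) x ∂(gam E n)

omit [NormedAddCommGroup E] [InnerProductSpace ℝ E] [FiniteDimensional ℝ E] [BorelSpace E] in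
lemma measurable_comp_state {Y : Type*} [MeasurableSpace Y] (w : S → E → ℝ≥0∞)
    (hw : ∀ m, Measurable (w m)) {st : Y → S} {x : Y → E} (hst : Measurable st)
    (hx : Measurable x) : Measurable fun y => w (st y) (x y) := by
  have h1 : Measurable fun q : E × S => w q.2 q.1 :=
    measurable_from_prod_countable_left (fun st => hw st)
  exact h1.comp (f := fun y => (x y, st y)) (by fun_prop)

variable {f : ℕ → S → E × ℝ → S} {w : S → E → ℝ≥0∞}

lemma measurable_val (hf : ∀ t st, Measurable (f t st)) (hw : ∀ m, Measurable (w m))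
    (n t : ℕ) (st : S) : Measurable (val f w n t st) :=
  Measurable.lintegral_prod_right' (f := fun p : E × (Fin n → E) =>
    w (iter f n t st (obs p.1 p.2)) p.1)
    (measurable_comp_state w hw
      (measurable_iter' f hf n t _ _ measurable_const measurable_obs) measurable_fst)

omit [Countable S] [MeasurableSpace S] [DiscreteMeasurableSpace S] in
lemma val_le_one (hw1 : ∀ m x, w m x ≤ 1) (n t : ℕ) (st : S) (x : E) : val f w n t st x ≤ 1 := by
  calc _ ≤ ∫⁻ _G, 1 ∂(gam E n) := lintegral_mono fun G => hw1 _ _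
    _ = 1 := by simp

omit [Countable S] [MeasurableSpace S] [DiscreteMeasurableSpace S] in
lemma val_zero (t : ℕ) (st : S) : val f w 0 t st = w st := by
  funext x; simp [val, iter]

lemma lintegral_iter_succ (hf : ∀ t st, Measurable (f t st)) (u : S → ℝ≥0∞)
    (n t : ℕ) (st : S) (x : E) :
    ∫⁻ G, u (iter f (n + 1) t st (obs x G)) ∂(gam E (n + 1))
      = ∫⁻ g, ∫⁻ G, u (iter f n (t + 1) (f t st (g, ⟪g, x⟫)) (obs x G)) ∂(gam E n)
        ∂(stdGaussian E) := by
  unfold gam
  rw [lintegral_fin_succ]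
  · rfl
  · exact (Measurable.of_discrete (f := u)).comp (measurable_iter' f hf _ t _ _ measurable_const
      (measurable_obs.comp (measurable_prodMk_left (x := x))))

lemma val_add (hf : ∀ t st, Measurable (f t st)) (n j : ℕ) (x : E) : ∀ (t : ℕ) (st : S),
    val f w (n + j) t st x
      = ∫⁻ G, val f w n (t + j) (iter f j t st (obs x G)) x ∂(gam E j) := by
  induction j with
  | zero => intro t st; simp [iter]
  | succ j ih =>
    intro t st
    rw [lintegral_iter_succ hf (fun m => val f w n (t + (j + 1)) m x)]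
    have h1 := lintegral_iter_succ hf (fun m => w m x) (n + j) t st x
    refine h1.trans (lintegral_congr fun g => ?_)
    have h2 := ih (t + 1) (f t st (g, ⟪g, x⟫))
    rw [show t + 1 + j = t + (j + 1) by omega] at h2
    exact h2

omit [InnerProductSpace ℝ E] [FiniteDimensional ℝ E] [BorelSpace E] in
lemma Frost.mono {ν : Measure E} {K K' : ℝ≥0∞} {α : ℕ} (h : Frost ν K α) (hK : K ≤ K') :
    Frost ν K' α := fun z ρ hρ => (h z ρ hρ).trans (by gcongr)

theorem frost_val (μ : Measure E) [IsFiniteMeasure μ] (hf : ∀ t st, Measurable (f t st))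
    (hw : ∀ m, Measurable (w m)) (hw1 : ∀ m x, w m x ≤ 1) (i : ℕ)
    (K : ℝ≥0∞) (hK0 : K ≠ 0) (hK : K ≠ ⊤)
    (hfr : ∀ m, Frost (μ.withDensity (w m)) K (2 * (i + 1)))
    (s : ℝ≥0∞) (hs0 : s ≠ 0) (hs : s ≠ ⊤)
    (hcard : ∀ j ≤ i + 1, ∀ t st, ∃ F : Finset S, (F.card : ℝ≥0∞) ≤ s ^ (i + 1) ∧
      ∀ ξ, iter f j t st ξ ∈ F)
    (Cg : ℝ≥0∞) (hCg1 : 1 ≤ Cg)
    (hCg : ∫⁻ g, ENNReal.ofReal (Real.exp (‖g‖ ^ 2 / 4)) ∂(stdGaussian E) ≤ Cg)
    (Λ : ℝ≥0∞) (hΛ : Λ ≠ ⊤) (hΛ2 : 1 + s * cOne (2 * (i + 1)) i * (Cg * 4 ^ (i + 1)) ≤ Λ)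
    (B : ℕ) : ∀ n ≤ B * (i + 1), ∀ t st,
      Frost (μ.withDensity (val f w n t st)) (K * Λ ^ B) (2 * (i + 1)) := by
  have hΛ0 : Λ ≠ 0 := (zero_lt_one.trans_le (le_self_add.trans hΛ2)).ne'
  induction B with
  | zero =>
    intro n hn t st
    obtain rfl : n = 0 := by omega
    rw [val_zero, pow_zero, mul_one]
    exact hfr st
  | succ B ih =>
    intro n hn t st
    obtain ⟨j, n', rfl, hj, hn'⟩ : ∃ j n', n = n' + j ∧ j ≤ i + 1 ∧ n' ≤ B * (i + 1) := by
      refine ⟨min (i + 1) n, n - min (i + 1) n, by omega, min_le_left _ _, ?_⟩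
      rw [add_mul, one_mul] at hn
      omega
    obtain ⟨F, hF1, hF2⟩ := hcard j hj t st
    obtain ⟨b, hb⟩ : ∃ b, 2 * (i + 1) = j + b := ⟨2 * (i + 1) - j, by omega⟩
    have h1 : val f w (n' + j) t st
        = fun x => ∫⁻ G, val f w n' (t + j) (iter f j t st (obs x G)) x ∂(gam E j) :=
      funext fun x => val_add hf n' j x t st
    rw [h1, hb]
    have h2 := block (j := j) (b := b) (i := i) (by omega) μ F (iter f j t st)
      (measurable_iter' f hf j t _ _ measurable_const measurable_id) hF2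
      (val f w n' (t + j)) (measurable_val hf hw _ _) (val_le_one hw1 _ _) (K * Λ ^ B)
      (mul_ne_zero hK0 (pow_ne_zero _ hΛ0)) (ENNReal.mul_ne_top hK (ENNReal.pow_ne_top hΛ))
      (fun m => hb ▸ ih n' hn' _ m) s hs0 hs hF1 Cg hCg1 hCg
    refine h2.mono ?_
    rw [pow_succ, mul_assoc]
    gcongr
    refine le_trans ?_ hΛ2
    rw [hb]
    gcongr
    norm_num

end Crest.Agent.R322
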