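import Crest.Agent.R322.Cover
import Crest.Prelude.Def_StreamLearn

/-! Facts on the uniform measure of the sphere. -/

set_option autoImplicit false

namespace Crest.Agent.R322

open MeasureTheory Set Metric Module Crest.StreamLearn
open scoped ENNReal RealInnerProductSpace Pointwise

variable {d : ℕ}

lemma sphereUniform_apply (hd : 1 ≤ d) {s : Set (Sphere d)} (hs : MeasurableSet s) :
    sphereUniform d s
      = volume (Ioo (0 : ℝ) 1 • ((↑) '' s : Set (E d))) / volume (ball (0 : E d) 1) := by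
  unfold sphereUniform
  rw [Measure.smul_apply, Measure.toSphere_apply' _ hs, Measure.toSphere_apply_univ, smul_eq_mul,
    finrank_euclideanSpace_fin, mul_comm, ← div_eq_mul_inv, ENNReal.mul_div_mul_left]
  · simp; omega
  · simp

lemma isProb_sphereUniform (hd : 1 ≤ d) : IsProbabilityMeasure (sphereUniform d) := by
  constructor
  unfold sphereUniform
  rw [Measure.smul_apply, smul_eq_mul, ENNReal.inv_mul_cancel _ (measure_ne_top _ _)]
  rw [Measure.toSphere_apply_univ, finrank_euclideanSpace_fin]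
  exact mul_ne_zero (by simp; omega) (measure_ball_pos _ _ one_pos).ne'

lemma frost_volume : Frost (volume : Measure (E d)) (volume (ball (0 : E d) 1)) d := by
  intro z ρ hρ
  rw [Measure.addHaar_closedBall _ _ hρ.le, finrank_euclideanSpace_fin, mul_comm,
    ENNReal.ofReal_pow hρ.le]

lemma sphere_slab (hd : 1 ≤ d) (V : Submodule ℝ (E d)) {δ : ℝ} (hδ : 0 < δ) :
    sphereUniform d {s | dst V (s : E d) ≤ δ}
      ≤ ENNReal.ofReal ((1 + 2 / δ) ^ finrank ℝ V * (2 * δ) ^ d) := by
  have hm : MeasurableSet {s : Sphere d | dst V (s : E d) ≤ δ} :=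
    measurableSet_le ((continuous_dst V).comp continuous_subtype_val).measurable measurable_const
  rw [sphereUniform_apply hd hm, ENNReal.div_le_iff (measure_ball_pos _ _ one_pos).ne'
    measure_ball_lt_top.ne]
  have h := (frost_volume (d := d)).slab V 0 1 δ zero_le_one hδ
  refine le_trans (measure_mono ?_) (h.trans (le_of_eq ?_))
  · rintro _ ⟨t, ht, _, ⟨s, hs, rfl⟩, rfl⟩
    have h1 : ‖(s : E d)‖ = 1 := norm_eq_of_mem_sphere s
    simp only [sub_zero, mem_ofPred_eq]
    constructor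
    · rw [norm_smul, h1, Real.norm_eq_abs, abs_of_pos ht.1]; linarith [ht.2]
    · have h2 : dst V (t • (s : E d)) = t * dst V s := by
        unfold dst
        rw [map_smul, ← smul_sub, norm_smul, Real.norm_eq_abs, abs_of_pos ht.1]
      rw [h2]
      have h3 : dst V (s : E d) ≤ δ := hs
      nlinarith [dst_nonneg V (s : E d), ht.1, ht.2]
  · rw [ENNReal.ofReal_mul (p := (1 + 2 / δ) ^ finrank ℝ V) (by positivity),
      ENNReal.ofReal_pow (p := 2 * δ) (by positivity), mul_one]
    ring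

/-- the uniform measure of the sphere as a measure on the ambient space -/
noncomputable def mu (d : ℕ) : Measure (E d) := (sphereUniform d).map Subtype.val

lemma isProb_mu (hd : 1 ≤ d) : IsProbabilityMeasure (mu d) := by
  have := isProb_sphereUniform hd
  exact Measure.isProbabilityMeasure_map measurable_subtype_coe.aemeasurable

lemma frost_mu (hd : 1 ≤ d) : Frost (mu d) (3 * 2 ^ d) (d - 1) := by
  intro z ρ hρ
  have := isProb_mu hd
  rcases le_total 1 ρ with h1 | h1
  · refine prob_le_one.trans (one_le_mul (one_le_mul (by norm_num) (one_le_pow₀ (by norm_num)))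
      (one_le_pow₀ (ENNReal.one_le_ofReal.2 h1)))
  unfold mu
  rw [Measure.map_apply measurable_subtype_coe measurableSet_closedBall]
  refine le_trans (measure_mono ?_) ((sphere_slab hd (ℝ ∙ z) hρ).trans ?_)
  · intro s hs
    have h2 : ‖(s : E d) - z‖ ≤ ρ := hs
    refine le_trans ?_ h2
    unfold dst
    rw [Submodule.starProjection_minimal]
    exact ciInf_le ⟨0, by rintro _ ⟨x, rfl⟩; exact norm_nonneg _⟩
      (⟨z, Submodule.mem_span_singleton_self z⟩ : ℝ ∙ z)
  · have h5 : finrank ℝ (ℝ ∙ z) ≤ 1 := by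
      simpa using finrank_span_le_card (R := ℝ) ({z} : Set (E d))
    have h6 : (1 + 2 / ρ) ^ finrank ℝ (ℝ ∙ z) * (2 * ρ) ^ d ≤ 3 * 2 ^ d * ρ ^ (d - 1) := by
      have h7 : (1 + 2 / ρ) ^ finrank ℝ (ℝ ∙ z) ≤ 3 / ρ := by
        have h8 : 0 ≤ 2 / ρ := by positivity
        calc _ ≤ (1 + 2 / ρ) ^ 1 := pow_le_pow_right₀ (by linarith) h5
          _ ≤ 3 / ρ := by
            rw [pow_one, le_div_iff₀ hρ, add_mul, div_mul_cancel₀ _ hρ.ne']; linarith
      obtain ⟨e, rfl⟩ := Nat.exists_eq_add_of_le' hd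
      calc _ ≤ 3 / ρ * (2 * ρ) ^ (e + 1) := by gcongr
        _ = _ := by rw [Nat.add_sub_cancel, mul_pow, pow_succ ρ]; field_simp
    refine (ENNReal.ofReal_le_ofReal h6).trans (le_of_eq ?_)
    rw [ENNReal.ofReal_mul (by positivity), ENNReal.ofReal_mul (by positivity),
      ENNReal.ofReal_pow hρ.le, ENNReal.ofReal_pow (by norm_num)]
    simp

lemma norm_sub_le_of_arccos {u v : E d} (hu : ‖u‖ = 1) (hv : ‖v‖ = 1) {ε : ℝ}
    (h : Real.arccos ⟪u, v⟫ ≤ ε) : ‖v - u‖ ≤ ε := by
  have h0 := Real.arccos_nonneg ⟪u, v⟫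
  have h1 : |⟪u, v⟫| ≤ 1 := by simpa [hu, hv] using abs_real_inner_le_norm u v
  have h2 := Real.cos_arccos (abs_le.1 h1).1 (abs_le.1 h1).2
  have h3 := Real.one_sub_sq_div_two_le_cos (x := Real.arccos ⟪u, v⟫)
  have h4 : ‖v - u‖ ^ 2 ≤ ε ^ 2 := by
    rw [norm_sub_sq_real, hu, hv, real_inner_comm]
    nlinarith
  exact (pow_le_pow_iff_left₀ (norm_nonneg _) (h0.trans h) two_ne_zero).1 h4

/-- the action of a linear isometry on the sphere -/
noncomputable def sphMap (e : E d ≃ₗᵢ[ℝ] E d) (s : Sphere d) : Sphere d :=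
  ⟨e s, by simp⟩

lemma measurable_sphMap (e : E d ≃ₗᵢ[ℝ] E d) : Measurable (sphMap e) :=
  (e.continuous.measurable.comp measurable_subtype_coe).subtype_mk

lemma sphereUniform_preimage (hd : 1 ≤ d) (e : E d ≃ₗᵢ[ℝ] E d) {S : Set (Sphere d)}
    (hS : MeasurableSet S) : sphereUniform d (sphMap e ⁻¹' S) = sphereUniform d S := by
  rw [sphereUniform_apply hd hS, sphereUniform_apply hd (measurable_sphMap e hS)]
  congr 1
  rw [← MeasurePreserving.measure_preimage_equiv (f := e.toMeasurableEquiv) e.measurePreserving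
    (Ioo (0 : ℝ) 1 • ((↑) '' S : Set (E d)))]
  congr 1
  ext x
  constructor
  · rintro ⟨t, ht, _, ⟨s, hs, rfl⟩, rfl⟩
    exact ⟨t, ht, _, ⟨sphMap e s, hs, rfl⟩, by simp [sphMap]⟩
  · rintro ⟨t, ht, _, ⟨s, hs, rfl⟩, hx⟩
    refine ⟨t, ht, _, ⟨sphMap e.symm s, ?_, rfl⟩, ?_⟩
    · have : sphMap e (sphMap e.symm s) = s := by ext1; simp [sphMap]
      simpa [this] using hs
    · apply e.injective
      simpa [sphMap] using hx

lemma reflect_bound (hd : 4 ≤ d) (V : Submodule ℝ (E d)) (hV : 4 * finrank ℝ V ≤ d)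
    (o : E d → E d) (ho : ∀ x, o (V.reflection x) = o x) (ho1 : ∀ x, ‖o x‖ = 1) {ε : ℝ}
    (hε : ε ≤ 1 / 10)
    (hS : MeasurableSet {s : Sphere d | Real.arccos ⟪o s, (s : E d)⟫ ≤ ε}) :
    sphereUniform d {s : Sphere d | Real.arccos ⟪o s, (s : E d)⟫ ≤ ε} ≤ ENNReal.ofReal (3 / 5) := by
  have hd1 : 1 ≤ d := by omega
  have := isProb_sphereUniform hd1
  set S := {s : Sphere d | Real.arccos ⟪o s, (s : E d)⟫ ≤ ε} with hSdef
  have h1 := sphereUniform_preimage hd1 V.reflection hS
  have h2 := measure_union_add_inter (μ := sphereUniform d) S (measurable_sphMap V.reflection hS)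
  have h3 : S ∩ sphMap V.reflection ⁻¹' S ⊆ {s | dst V (s : E d) ≤ 1 / 10} := by
    rintro s ⟨hs1, hs2⟩
    have a1 := norm_sub_le_of_arccos (ho1 _) (norm_eq_of_mem_sphere s) hs1
    have a2 := norm_sub_le_of_arccos (ho1 _) (norm_eq_of_mem_sphere (sphMap V.reflection s)) hs2
    simp only [sphMap, ho] at a2
    have a3 : (s : E d) - V.reflection s = (2 : ℝ) • ((s : E d) - V.starProjection s) := by
      rw [Submodule.reflection_apply, two_smul, two_smul]; abel
    have a4 : ‖(s : E d) - V.reflection s‖ ≤ ε + ε := by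
      have e : (s : E d) - V.reflection s = ((s : E d) - o s) - (V.reflection s - o s) := by abel
      rw [e]
      exact (norm_sub_le _ _).trans (add_le_add a1 a2)
    rw [a3, norm_smul] at a4
    simp only [Real.norm_ofNat] at a4
    show ‖(s : E d) - V.starProjection s‖ ≤ 1 / 10
    linarith
  have h4 : sphereUniform d {s | dst V (s : E d) ≤ 1 / 10} ≤ ENNReal.ofReal (1 / 5) := by
    refine (sphere_slab hd1 V (by norm_num)).trans (ENNReal.ofReal_le_ofReal ?_)
    have b1 : (1 + 2 / (1 / 10) : ℝ) ^ finrank ℝ V ≤ 3 ^ d := by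
      calc (1 + 2 / (1 / 10) : ℝ) ^ finrank ℝ V ≤ (3 ^ 4) ^ finrank ℝ V := by gcongr; norm_num
        _ = 3 ^ (4 * finrank ℝ V) := by rw [pow_mul]
        _ ≤ 3 ^ d := pow_le_pow_right₀ (by norm_num) hV
    calc _ ≤ (3 : ℝ) ^ d * (2 * (1 / 10)) ^ d := by gcongr
      _ = (3 / 5) ^ d := by rw [← mul_pow]; norm_num
      _ ≤ (3 / 5) ^ 4 := pow_le_pow_of_le_one (by norm_num) (by norm_num) hd
      _ ≤ _ := by norm_num
  have h5 : sphereUniform d S + sphereUniform d S ≤ 1 + ENNReal.ofReal (1 / 5) := by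
    rw [h1] at h2
    rw [← h2]
    exact add_le_add prob_le_one ((measure_mono h3).trans h4)
  have h6 := ENNReal.toReal_mono (by simp) h5
  rw [ENNReal.toReal_add (measure_ne_top _ _) (measure_ne_top _ _),
    ENNReal.toReal_add (by simp) (by simp), ENNReal.toReal_ofReal (by norm_num)] at h6
  rw [← ENNReal.ofReal_toReal (measure_ne_top (sphereUniform d) S)]
  refine ENNReal.ofReal_le_ofReal ?_
  simp only [ENNReal.toReal_one] at h6
  linarith

end Crest.Agent.R322
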