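import Crest.Agent.R322.Iter
import Crest.Agent.R322.Sphere

/-! The learner as a finite-state process, and the final bound. -/

set_option autoImplicit false

namespace Crest.Agent.R322

open MeasureTheory ProbabilityTheory Set Metric Module Crest.StreamLearn
open scoped ENNReal RealInnerProductSpace

variable {d T M : ℕ} (L : RLearner d T M)

/-- extended states -/
def XS : Type := L.St × Option ℕ

instance : Countable (XS L) := by
  have := L.fin
  unfold XS; infer_instance

instance : MeasurableSpace (XS L) := ⊤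

instance : DiscreteMeasurableSpace (XS L) := ⟨fun _ => trivial⟩

instance : MeasurableSpace L.Ω := L.mΩ

instance : IsProbabilityMeasure L.ρ := L.prob

/-- one step of the learner -/
def stepL (ω : L.Ω) (t : ℕ) (st : XS L) (p : E d × ℝ) : XS L :=
  if h : t < T then
    (if st.2.isSome then st else
      if (L.trans ⟨t, h⟩ ω st.1 p.1 p.2).2
      then ((L.trans ⟨t, h⟩ ω st.1 p.1 p.2).1, some (t + 1))
      else ((L.trans ⟨t, h⟩ ω st.1 p.1 p.2).1, none))
  else st

/-- initial extended state -/
def initL (ω : L.Ω) : XS L := (L.init ω, if L.stopFirst ω then some 0 else none)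

lemma run_eq (ω : L.Ω) (s : E d) (xs : Fin T → E d) :
    L.run ω s xs = iter (stepL L ω) T 0 (initL L ω) (obs s xs) := by
  rw [← foldl_eq_iter]
  unfold RLearner.run
  congr 1
  funext st t
  simp only [stepL, zero_add, Fin.is_lt, ↓reduceDIte, obs, Fin.eta]
  rfl

lemma measurable_pair {Y : Type*} [MeasurableSpace Y] (a : Y → L.St) (b : Y → Bool)
    (ha : @Measurable Y L.St _ ⊤ a) (hb : Measurable b) (φ : L.St → Bool → XS L) :
    Measurable fun y => φ (a y) (b y) := by
  let _ : MeasurableSpace L.St := ⊤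
  have := L.fin
  have : DiscreteMeasurableSpace L.St := ⟨fun _ => trivial⟩
  exact (Measurable.of_discrete (f := fun q : L.St × Bool => φ q.1 q.2)).comp (ha.prodMk hb)

lemma measurable_stepL (t : ℕ) (st : XS L) :
    Measurable fun p : L.Ω × (E d × ℝ) => stepL L p.1 t st p.2 := by
  unfold stepL
  by_cases h : t < T
  · simp only [h, ↓reduceDIte]
    by_cases h2 : st.2.isSome
    · simp only [h2, ↓reduceIte]; exact measurable_const
    · simp only [h2]
      exact measurable_pair L _ _ (L.trans_measurable ⟨t, h⟩ st.1).1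
        (L.trans_measurable ⟨t, h⟩ st.1).2
        (fun q b => if b then (q, some (t + 1)) else (q, none))
  · simp only [h, ↓reduceDIte]; exact measurable_const

lemma measurable_initL : Measurable (initL L) :=
  measurable_pair L _ _ L.init_measurable L.stopFirst_measurable
    (fun q b => (q, if b then some 0 else none))

lemma stepL_snd (ω : L.Ω) (t : ℕ) (st : XS L) (p : E d × ℝ) :
    (stepL L ω t st p).2 = st.2 ∨ (stepL L ω t st p).2 = some (t + 1) := by
  unfold stepL
  by_cases h1 : t < T
  · rw [dif_pos h1]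
    by_cases h2 : st.2.isSome
    · rw [if_pos h2]; exact Or.inl rfl
    · rw [if_neg h2]
      by_cases h3 : (L.trans ⟨t, h1⟩ ω st.1 p.1 p.2).2
      · right; simp only [h3, ↓reduceIte]
      · left
        simp only [Bool.not_eq_true, Option.isSome_eq_false_iff, Option.isNone_iff_eq_none] at h2
        simp only [h3, Bool.false_eq_true, ↓reduceIte, h2]
  · rw [dif_neg h1]; exact Or.inl rfl

lemma iter_snd (ω : L.Ω) (n : ℕ) : ∀ (t : ℕ) (st : XS L) (ξ : Fin n → E d × ℝ),
    (iter (stepL L ω) n t st ξ).2 ∈ insert st.2 ((Finset.Ioc t (t + n)).image some) := by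
  induction n with
  | zero => intro t st ξ; simp [iter]
  | succ n ih =>
    intro t st ξ
    have h := ih (t + 1) (stepL L ω t st (ξ 0)) (Fin.tail ξ)
    rw [iter]
    simp only [Finset.mem_insert, Finset.mem_image, Finset.mem_Ioc] at h ⊢
    rcases h with h | ⟨a, ha, h⟩
    · rcases stepL_snd L ω t st (ξ 0) with h2 | h2
      · exact Or.inl (h.trans h2)
      · exact Or.inr ⟨t + 1, by omega, (h.trans h2).symm⟩
    · exact Or.inr ⟨a, by omega, h⟩

lemma exists_finset (ω : L.Ω) (n t : ℕ) (st : XS L) :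
    ∃ F : Finset (XS L), F.card ≤ 2 ^ M * (n + 1) ∧ ∀ ξ, iter (stepL L ω) n t st ξ ∈ F := by
  let _ := L.fin
  refine ⟨(Finset.univ : Finset L.St) ×ˢ insert st.2 ((Finset.Ioc t (t + n)).image some), ?_,
    fun ξ => Finset.mem_product.2 ⟨Finset.mem_univ _, iter_snd L ω n t st ξ⟩⟩
  refine (Finset.card_product _ _).le.trans (Nat.mul_le_mul L.card_le ?_)
  refine (Finset.card_insert_le _ _).trans ?_
  have := Finset.card_image_le (s := Finset.Ioc t (t + n)) (f := some)
  simp only [Nat.card_Ioc, add_tsub_cancel_left] at this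
  omega

/-- the success event -/
def succSet (ε : ℝ) : Set (Sphere d × (L.Ω × (Fin T → E d))) :=
  {p | Real.arccos ⟪L.output p.2.1 p.1 p.2.2, (p.1 : E d)⟫ ≤ ε}

lemma measurable_output :
    Measurable fun p : E d × (L.Ω × (Fin T → E d)) => L.output p.2.1 p.1 p.2.2 := by
  have h1 : Measurable fun p : E d × (L.Ω × (Fin T → E d)) =>
      iter (stepL L p.2.1) T 0 (initL L p.2.1) (obs p.1 p.2.2) :=
    measurable_iter (stepL L) (measurable_stepL L) _ (by fun_prop) T 0 _ _
      ((measurable_initL L).comp (by fun_prop))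
      (measurable_obs.comp (f := fun p : E d × (L.Ω × (Fin T → E d)) => (p.1, p.2.2))
        (by fun_prop))
  have h2 : Measurable fun q : L.Ω × XS L => L.out (q.2.2.getD T) q.1 q.2.1 :=
    measurable_from_prod_countable_left (fun st => L.out_measurable (st.2.getD T) st.1)
  simp only [RLearner.output, run_eq]
  exact h2.comp (Measurable.prodMk (by fun_prop) h1)

lemma measurableSet_succSet (ε : ℝ) : MeasurableSet (succSet L ε) := by
  have h1 : Measurable fun p : Sphere d × (L.Ω × (Fin T → E d)) => L.output p.2.1 p.1 p.2.2 :=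
    (measurable_output L).comp (f := fun p : Sphere d × (L.Ω × (Fin T → E d)) =>
      ((p.1 : E d), p.2)) (by fun_prop)
  exact measurableSet_le (Real.continuous_arccos.measurable.comp (h1.inner (by fun_prop)))
    measurable_const

lemma successProb_eq (ε : ℝ) : L.successProb ε
    = (((sphereUniform d).prod (L.ρ.prod (gam (E d) T))) (succSet L ε)).toReal := rfl

lemma small_T (hd : 4 ≤ d) (hT : 4 * T ≤ d) {ε : ℝ} (hε : ε ≤ 1 / 10) :
    L.successProb ε ≤ 3 / 5 := by
  have := isProb_sphereUniform (d := d) (by omega)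
  rw [successProb_eq]
  refine ENNReal.toReal_le_of_le_ofReal (by norm_num) ?_
  rw [Measure.prod_apply_symm (measurableSet_succSet L ε)]
  calc _ ≤ ∫⁻ _q, ENNReal.ofReal (3 / 5) ∂(L.ρ.prod (gam (E d) T)) := by
        refine lintegral_mono fun q => ?_
        have hV : finrank ℝ (Submodule.span ℝ (range q.2)) ≤ T := by
          simpa [Set.finrank] using finrank_range_le_card (R := ℝ) q.2
        refine reflect_bound hd (Submodule.span ℝ (range q.2)) (by omega)
          (fun s => L.output q.1 s q.2) ?_ (fun s => L.out_unit _ _ _) hε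
          (measurable_prodMk_right (measurableSet_succSet L ε))
        intro x
        have : obs ((Submodule.span ℝ (range q.2)).reflection x) q.2 = obs x q.2 := by
          funext l
          simp only [obs]
          congr 1
          have h1 : (Submodule.span ℝ (range q.2)).reflection (q.2 l) = q.2 l :=
            Submodule.reflection_mem_subspace_eq_self (Submodule.subset_span ⟨l, rfl⟩)
          conv_lhs => rw [← h1]
          exact LinearIsometryEquiv.inner_map_map _ _ _
        simp only [RLearner.output, run_eq, this]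
    _ = _ := by simp

/-- terminal reward -/
noncomputable def rew (ε : ℝ) (ω : L.Ω) (st : XS L) : E d → ℝ≥0∞ :=
  (closedBall (L.out (st.2.getD T) ω st.1) ε).indicator 1

lemma measurable_rew (ε : ℝ) (ω : L.Ω) (st : XS L) : Measurable (rew L ε ω st) :=
  measurable_one.indicator measurableSet_closedBall

lemma rew_le_one (ε : ℝ) (ω : L.Ω) (st : XS L) (x : E d) : rew L ε ω st x ≤ 1 := by
  unfold rew
  by_cases h : x ∈ closedBall (L.out (st.2.getD T) ω st.1) ε <;> simp [h]

lemma measurable_stepL' (ω : L.Ω) (t : ℕ) (st : XS L) : Measurable (stepL L ω t st) :=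
  (measurable_stepL L t st).comp (measurable_prodMk_left (x := ω))

lemma frost_rew (hd : 1 ≤ d) {ε : ℝ} (hε : 0 < ε) (ω : L.Ω) (st : XS L) {α e : ℕ}
    (he : d - 1 = α + e) :
    Frost ((mu d).withDensity (rew L ε ω st)) (3 * 2 ^ d * ENNReal.ofReal ε ^ e) α := by
  intro z ρ hρ
  unfold rew
  rw [withDensity_indicator_one measurableSet_closedBall,
    Measure.restrict_apply measurableSet_closedBall]
  rcases le_total ρ ε with h | h
  · refine (measure_mono inter_subset_left).trans ((frost_mu hd z ρ hρ).trans ?_)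
    rw [he, pow_add, mul_comm (_ ^ α), mul_assoc (3 * 2 ^ d)]
    gcongr
  · refine (measure_mono inter_subset_right).trans ((frost_mu hd _ ε hε).trans ?_)
    rw [he, pow_add, mul_comm (_ ^ α), mul_assoc (3 * 2 ^ d)]
    gcongr

lemma success_le (hd : 1 ≤ d) (ε : ℝ) (C : ℝ≥0∞)
    (hC : ∀ ω, ∫⁻ x, val (stepL L ω) (rew L ε ω) T 0 (initL L ω) x ∂(mu d) ≤ C) :
    ((sphereUniform d).prod (L.ρ.prod (gam (E d) T))) (succSet L ε) ≤ C := by
  have := isProb_sphereUniform (d := d) hd
  have hS := measurableSet_succSet L ε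
  have hI : Measurable ((succSet L ε).indicator
      (1 : Sphere d × (L.Ω × (Fin T → E d)) → ℝ≥0∞)) := measurable_one.indicator hS
  rw [← lintegral_indicator_one hS, lintegral_prod _ hI.aemeasurable]
  have h1 : ∀ s : Sphere d, ∫⁻ q, (succSet L ε).indicator 1 (s, q) ∂(L.ρ.prod (gam (E d) T))
      = ∫⁻ ω, ∫⁻ xs, (succSet L ε).indicator 1 (s, ω, xs) ∂(gam (E d) T) ∂L.ρ := fun s =>
    lintegral_prod _ (hI.comp measurable_prodMk_left).aemeasurable
  simp_rw [h1]
  rw [lintegral_lintegral_swap]
  swap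
  · exact (Measurable.lintegral_prod_right'
      (f := fun p : (Sphere d × L.Ω) × (Fin T → E d) =>
        (succSet L ε).indicator 1 (p.1.1, p.1.2, p.2)) (hI.comp (by fun_prop))).aemeasurable
  calc _ ≤ ∫⁻ _ω, C ∂L.ρ := by
        refine lintegral_mono fun ω => le_trans ?_ (hC ω)
        unfold mu
        rw [lintegral_map (measurable_val (measurable_stepL' L ω) (measurable_rew L ε ω) _ _ _)
          measurable_subtype_coe]
        refine lintegral_mono fun s => lintegral_mono fun xs => ?_
        by_cases h : (s, ω, xs) ∈ succSet L ε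
        swap
        · simp [h]
        have h2 := norm_sub_le_of_arccos (L.out_unit _ _ _) (norm_eq_of_mem_sphere s) h
        simp only [indicator_of_mem h, Pi.one_apply, rew, ← run_eq]
        rw [indicator_of_mem (mem_closedBall_iff_norm.2 h2), Pi.one_apply]
    _ = C := by simp

lemma main_bound {i a e B : ℕ} (hi : 8 * (i + 1) ≤ d) (hM : M ≤ a * d * (i + 1))
    (he : d - 1 = 2 * (i + 1) + e) (hB : T ≤ B * (i + 1)) {ε : ℝ} (hε : 0 < ε) :
    L.successProb ε ≤ 3 * 2 ^ d * ε ^ e * (2 ^ ((a + 3) * d)) ^ B := by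
  have hd : 1 ≤ d := by omega
  have := isProb_mu hd
  rw [successProb_eq]
  refine ENNReal.toReal_le_of_le_ofReal (by positivity) (success_le L hd ε _ fun ω => ?_)
  have h := frost_val (mu d) (measurable_stepL' L ω) (measurable_rew L ε ω) (rew_le_one L ε ω) i
    (3 * 2 ^ d * ENNReal.ofReal ε ^ e)
    (mul_ne_zero (by simp) (pow_ne_zero _ (ENNReal.ofReal_pos.2 hε).ne'))
    (ENNReal.mul_ne_top (ENNReal.mul_ne_top (by simp) (ENNReal.pow_ne_top (by simp)))
      (ENNReal.pow_ne_top ENNReal.ofReal_ne_top))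
    (fun m => frost_rew L hd hε ω m he) (2 ^ (a * d + 1)) (by simp) (ENNReal.pow_ne_top (by simp))
    (fun j hj t st => by
      obtain ⟨F, hF1, hF2⟩ := exists_finset L ω j t st
      refine ⟨F, ?_, hF2⟩
      have h1 : F.card ≤ (2 ^ (a * d + 1)) ^ (i + 1) := by
        refine hF1.trans ?_
        rw [← pow_mul, add_mul, one_mul, pow_add]
        refine Nat.mul_le_mul (Nat.pow_le_pow_right (by norm_num) hM) ?_
        have := Nat.lt_two_pow_self (n := i + 1)
        omega
      exact_mod_cast h1)
    (2 ^ d) (one_le_pow₀ (by norm_num)) (lintegral_exp_sq d) (2 ^ ((a + 3) * d))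
    (ENNReal.pow_ne_top (by simp)) (by
      unfold cOne
      have h1 : 1 + 2 ^ (a * d + 1) * (2 ^ (2 * (2 * (i + 1)) + 2) * 5 ^ i) * (2 ^ d * 4 ^ (i + 1))
          ≤ 2 ^ ((a + 3) * d) := by
        have h2 : 5 ^ i ≤ 2 ^ (3 * i) := by
          rw [pow_mul]; exact Nat.pow_le_pow_left (by norm_num) _
        have h3 : 4 ^ (i + 1) = 2 ^ (2 * (i + 1)) := by rw [pow_mul]; norm_num
        have h4 : 2 ^ (a * d + 1) * (2 ^ (2 * (2 * (i + 1)) + 2) * 5 ^ i) * (2 ^ d * 4 ^ (i + 1))
            ≤ 2 ^ (a * d + 1 + (2 * (2 * (i + 1)) + 2 + 3 * i) + (d + 2 * (i + 1))) := by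
          rw [h3]
          simp only [pow_add _ (a * d + 1 + _), pow_add _ (a * d + 1), pow_add _ (2 * (2 * (i + 1)) + 2),
            pow_add _ d]
          gcongr
        have h5 : 2 ^ (a * d + 1 + (2 * (2 * (i + 1)) + 2 + 3 * i) + (d + 2 * (i + 1)))
            < 2 ^ ((a + 3) * d) := Nat.pow_lt_pow_right (by norm_num) (by rw [add_mul]; omega)
        omega
      exact_mod_cast h1) B T hB 0 (initL L ω) 0 1 one_pos
  rw [withDensity_apply _ measurableSet_closedBall, Measure.restrict_eq_self_of_ae_mem] at h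
  · refine h.trans (le_of_eq ?_)
    rw [ENNReal.ofReal_mul (by positivity), ENNReal.ofReal_mul (by positivity),
      ENNReal.ofReal_mul (by positivity), ENNReal.ofReal_pow (by positivity),
      ENNReal.ofReal_pow (by positivity), ENNReal.ofReal_pow (by positivity),
      ENNReal.ofReal_pow (by positivity)]
    simp
  · unfold mu
    exact (ae_map_iff measurable_subtype_coe.aemeasurable measurableSet_closedBall).2
      (Filter.Eventually.of_forall fun s => sphere_subset_closedBall s.2)

theorem final (A : ℝ) (hA : 0 < A) : ∃ c : ℝ, 0 < c ∧ ∃ d₀ : ℕ, ∀ d ≥ d₀, ∀ (M T : ℕ),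
      (M : ℝ) ≤ A * (d : ℝ) ^ 2 → ∀ ε : ℝ, 0 < ε → ε ≤ 1 / 10 →
        ∀ L : RLearner d T M,
          2 / 3 ≤ L.successProb ε → c * d * Real.log (1 / ε) ≤ T := by
  set a := ⌈16 * A⌉₊ with ha
  refine ⟨1 / (40 * a + 136), by positivity, 8, fun d hd M T hM ε hε hε' L hL => ?_⟩
  have hT : d < 4 * T := by
    by_contra hc
    have := small_T L (by omega) (by omega) hε'
    linarith
  obtain ⟨i, hi⟩ : ∃ i, d / 8 = i + 1 := ⟨d / 8 - 1, by omega⟩
  obtain ⟨e, he⟩ : ∃ e, d - 1 = 2 * (i + 1) + e := ⟨d - 1 - 2 * (i + 1), by omega⟩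
  have hd16 : d ≤ 16 * (i + 1) := by omega
  have hd16' : (d : ℝ) ≤ 16 * (i + 1) := by exact_mod_cast hd16
  have hdpos : (0 : ℝ) < d := by exact_mod_cast (by omega : 0 < d)
  have hM' : M ≤ a * d * (i + 1) := by
    have h1 : 16 * A ≤ a := Nat.le_ceil _
    have h2 : (M : ℝ) ≤ a * d * (i + 1) := by
      calc (M : ℝ) ≤ A * d * d := by nlinarith
        _ ≤ A * d * (16 * (i + 1)) := by gcongr
        _ = 16 * A * d * (i + 1) := by ring
        _ ≤ _ := by gcongr
    exact_mod_cast h2
  set B := T / (i + 1) + 1 with hB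
  have hB1 : T ≤ B * (i + 1) := by
    have := Nat.lt_div_mul_add (a := T) (b := i + 1) (by omega)
    rw [hB, add_mul]; omega
  have hB2 : (B : ℝ) * d ≤ 16 * T + d := by
    have h1 : T / (i + 1) * (i + 1) ≤ T := Nat.div_mul_le_self _ _
    have h2 : B * d ≤ 16 * T + d := by
      rw [hB, add_mul, one_mul]
      have : T / (i + 1) * d ≤ T / (i + 1) * (16 * (i + 1)) := Nat.mul_le_mul_left _ hd16
      nlinarith
    exact_mod_cast h2
  have h := hL.trans (main_bound L (by omega) hM' he hB1 hε)
  have hlog := Real.log_le_log (by norm_num) h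
  rw [Real.log_mul (by positivity) (by positivity), Real.log_mul (by positivity) (by positivity),
    Real.log_mul (by positivity) (by positivity), Real.log_pow, Real.log_pow, Real.log_pow,
    Real.log_pow, Real.log_div (by norm_num) (by norm_num)] at hlog
  have hl2 : Real.log 2 ≤ 1 := by linarith [Real.log_two_lt_d9]
  have hl2' : 0 < Real.log 2 := Real.log_pos (by norm_num)
  have hl3 : Real.log 3 ≤ 2 := by
    have := Real.log_le_sub_one_of_pos (x := 3) (by norm_num); linarith
  have hlε : Real.log ε < 0 := Real.log_neg hε (by linarith)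
  rw [one_div ε, Real.log_inv]
  set Lg := -Real.log ε with hLg
  have hLg0 : 0 < Lg := by linarith
  have he2 : (d : ℝ) ≤ 2 * e := by exact_mod_cast (by omega : d ≤ 2 * e)
  have hd8 : (8 : ℝ) ≤ d := by exact_mod_cast hd
  have hT' : (d : ℝ) ≤ 4 * T := by exact_mod_cast hT.le
  have ha0 : (0 : ℝ) ≤ a := Nat.cast_nonneg _
  push_cast at hlog
  have h1 : (B : ℝ) * ((a + 3) * d * Real.log 2) ≤ (a + 3) * (16 * T + d) := by
    calc (B : ℝ) * ((a + 3) * d * Real.log 2) ≤ B * ((a + 3) * d * 1) := by gcongr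
      _ = (a + 3) * (B * d) := by ring
      _ ≤ _ := by gcongr
  have h2 : (d : ℝ) * Real.log 2 ≤ d := by nlinarith
  have h3 : (d : ℝ) * Lg ≤ 2 * (e * Lg) := by nlinarith
  have h4 : (e : ℝ) * Lg ≤ 2 * d + (a + 3) * (16 * T + d) := by
    have : (e : ℝ) * Real.log ε = -(e * Lg) := by rw [hLg]; ring
    linarith
  rw [one_div, mul_assoc, inv_mul_le_iff₀ (by positivity)]
  nlinarith

end Crest.Agent.R322
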