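import Crest.Agent.R322.Gauss
import Crest.Agent.R322.Cover

/-! The `L^{q+1}` bound for the mollified Gaussian projection. -/

set_option autoImplicit false

namespace Crest.Agent.R322

open MeasureTheory ProbabilityTheory Set Metric Module
open scoped ENNReal RealInnerProductSpace

variable {E : Type*} [NormedAddCommGroup E] [InnerProductSpace ℝ E] [FiniteDimensional ℝ E]
  [MeasurableSpace E] [BorelSpace E]

variable (E) in
/-- reference measure for one sample -/
noncomputable def rowM : Measure (E × ℝ) := (stdGaussian E).prod volume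

instance : SigmaFinite (rowM E) := by unfold rowM; infer_instance

instance : IsFiniteMeasureOnCompacts (rowM E) := by unfold rowM; infer_instance

variable (E) in
/-- reference measure for a block -/
noncomputable def lam (j : ℕ) : Measure (Fin j → E × ℝ) := Measure.pi fun _ => rowM E

instance (j : ℕ) : SigmaFinite (lam E j) := by unfold lam; infer_instance

instance (j : ℕ) : IsFiniteMeasureOnCompacts (lam E j) := by unfold lam; infer_instance

variable (E) in
/-- law of a block of samples -/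
noncomputable def gam (j : ℕ) : Measure (Fin j → E) := Measure.pi fun _ => stdGaussian E

instance (j : ℕ) : IsProbabilityMeasure (gam E j) := by unfold gam; infer_instance

/-- the observations -/
noncomputable def obs {j : ℕ} (x : E) (G : Fin j → E) : Fin j → E × ℝ :=
  fun i => (G i, ⟪G i, x⟫)

lemma measurable_obs {j : ℕ} : Measurable fun p : E × (Fin j → E) => obs p.1 p.2 := by
  unfold obs; fun_prop

/-- box kernel -/
noncomputable def phi (δ t : ℝ) : ℝ≥0∞ :=
  (Icc (-δ) δ).indicator (fun _ => (ENNReal.ofReal (2 * δ))⁻¹) t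

@[fun_prop]
lemma measurable_phi (δ : ℝ) : Measurable (phi δ) :=
  measurable_const.indicator measurableSet_Icc

lemma lintegral_phi {δ : ℝ} (hδ : 0 < δ) : ∫⁻ t, phi δ t = 1 := by
  unfold phi
  rw [lintegral_indicator measurableSet_Icc, setLIntegral_const, Real.volume_Icc]
  have : δ - -δ = 2 * δ := by ring
  rw [this, ENNReal.inv_mul_cancel (ENNReal.ofReal_pos.2 (by positivity)).ne' ENNReal.ofReal_ne_top]

lemma abs_le_of_phi_ne {δ t : ℝ} (h : phi δ t ≠ 0) : |t| ≤ δ := by
  by_contra hc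
  apply h
  unfold phi
  rw [indicator_of_notMem]
  intro hm
  exact hc (abs_le.2 hm)

/-- mollified kernel -/
noncomputable def ker (δ : ℝ) (p : E × ℝ) (x : E) : ℝ≥0∞ := phi δ (p.2 - ⟪p.1, x⟫)

@[fun_prop]
lemma measurable_ker {X : Type*} [MeasurableSpace X] (δ : ℝ) {f : X → E × ℝ} {g : X → E}
    (hf : Measurable f) (hg : Measurable g) : Measurable fun z => ker δ (f z) (g z) := by
  unfold ker; fun_prop

/-- mollified projection density -/
noncomputable def Rad {j : ℕ} (ν : Measure E) (δ : ℝ) (ξ : Fin j → E × ℝ) : ℝ≥0∞ :=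
  ∫⁻ x, ∏ i, ker δ (ξ i) x ∂ν

@[fun_prop]
lemma measurable_Rad {j : ℕ} (ν : Measure E) [SFinite ν] (δ : ℝ) :
    Measurable (Rad (j := j) ν δ) := by
  unfold Rad
  exact Measurable.lintegral_prod_right' (f := fun p : (Fin j → E × ℝ) × E =>
    ∏ i, ker δ (p.1 i) p.2) (by fun_prop)

lemma lam_split {j : ℕ} (f : (Fin j → E × ℝ) → ℝ≥0∞) (hf : Measurable f) :
    ∫⁻ ξ, f ξ ∂(lam E j) = ∫⁻ G, ∫⁻ y : Fin j → ℝ, f (fun i => (G i, y i)) ∂volume ∂(gam E j) := by
  have hp := (measurePreserving_arrowProdEquivProdArrow E ℝ (Fin j)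
    (fun _ => stdGaussian E) (fun _ => volume)).symm
  unfold lam rowM gam
  rw [← hp.lintegral_comp_emb (MeasurableEquiv.measurableEmbedding _), lintegral_prod]
  · rfl
  · exact (hf.comp (MeasurableEquiv.measurable _)).aemeasurable

lemma row_shear (a : E) (f : E × ℝ → ℝ≥0∞) (hf : Measurable f) :
    ∫⁻ p, f p ∂(rowM E) = ∫⁻ y, ∫⁻ g, f (g, y + ⟪g, a⟫) ∂(stdGaussian E) := by
  unfold rowM
  rw [lintegral_prod _ hf.aemeasurable,
    ← lintegral_lintegral_swap (f := fun g y => f (g, y + ⟪g, a⟫))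
      (Measurable.aemeasurable (by fun_prop))]
  refine lintegral_congr fun g => ?_
  rw [lintegral_add_right_eq_self (fun y => f (g, y))]

lemma lintegral_ker {δ : ℝ} (hδ : 0 < δ) (x : E) : ∫⁻ p, ker δ p x ∂(rowM E) = 1 := by
  rw [row_shear x _ (by fun_prop)]
  simp [ker, lintegral_phi hδ]

lemma row_peel {δ : ℝ} (hδ : 0 < δ) (a x : E) (V : Submodule ℝ E) (F : E × ℝ → ℝ≥0∞)
    (hF : Measurable F) (hinv : ∀ w ∈ Vᗮ, ∀ g y, F (g + w, y + ⟪w, a⟫) = F (g, y)) :
    ∫⁻ p, F p * ker δ p x ∂(rowM E)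
      ≤ (ENNReal.ofReal (dst V (x - a)))⁻¹ * ∫⁻ p, F p ∂(rowM E) := by
  rcases (dst_nonneg V (x - a)).eq_or_lt with h0 | h0
  · rw [← h0, ENNReal.ofReal_zero, ENNReal.inv_zero, ← lintegral_const_mul _ hF]
    refine lintegral_mono fun p => ?_
    rw [mul_comm]
    gcongr
    exact le_top
  set v := x - a with hv
  set w := v - V.starProjection v with hw
  have hwV : w ∈ Vᗮ := V.sub_starProjection_mem_orthogonal v
  have hwn : ‖w‖ = dst V v := rfl
  set n : E := (dst V v)⁻¹ • w with hn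
  have hn1 : ‖n‖ = 1 := by
    rw [hn, norm_smul, hwn, Real.norm_eq_abs, abs_of_pos (inv_pos.2 h0), inv_mul_cancel₀ h0.ne']
  have hnV : n ∈ Vᗮ := Vᗮ.smul_mem _ hwV
  have hnv : ⟪n, v⟫ = dst V v := by
    have e : v = w + V.starProjection v := by rw [hw]; abel
    have h1 : ⟪w, V.starProjection v⟫ = 0 :=
      Submodule.inner_left_of_mem_orthogonal (V.starProjection_apply_mem v) hwV
    have h2 : ⟪w, v⟫ = dst V v ^ 2 := by
      conv_lhs => rw [e]
      rw [inner_add_right, h1, add_zero, real_inner_self_eq_norm_sq, hwn]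
    rw [hn, real_inner_smul_left, h2]
    field_simp
  rw [row_shear a _ (by fun_prop), row_shear a _ hF, ← lintegral_const_mul]
  swap
  · exact Measurable.lintegral_prod_right' (f := fun p : ℝ × E => F (p.2, p.1 + ⟪p.2, a⟫))
      (by fun_prop)
  refine lintegral_mono fun y => ?_
  have h := gauss_peel n hn1 (fun g => F (g, y + ⟪g, a⟫)) (by fun_prop) (fun g t => by
      have := hinv (t • n) (Vᗮ.smul_mem t hnV) g (y + ⟪g, a⟫)
      rw [← this, inner_add_left, add_assoc])
    (fun t => phi δ (y - t)) (by fun_prop)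
    (by rw [lintegral_sub_left_eq_self (phi δ), lintegral_phi hδ]) v (by rw [hnv]; exact h0.ne')
  rw [hnv, abs_of_pos h0, ENNReal.ofReal_inv_of_pos h0] at h
  refine le_trans (le_of_eq ?_) h
  refine lintegral_congr fun g => ?_
  simp only [ker, hv, inner_sub_right]
  congr 2
  ring

lemma peel_iter {j : ℕ} (ν : Measure E) [SFinite ν] {δ : ℝ} (hδ : 0 < δ) (a : E) (i : ℕ)
    (D : ℝ≥0∞) (hD : ∀ V : Submodule ℝ E, finrank ℝ V ≤ i →
      ∫⁻ x, (ENNReal.ofReal (dst V (x - a)))⁻¹ ^ j ∂ν ≤ D) (m : ℕ) :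
    ∀ (V : Submodule ℝ E) (F : E × ℝ → ℝ≥0∞), Measurable F →
      (∀ w ∈ Vᗮ, ∀ g y, F (g + w, y + ⟪w, a⟫) = F (g, y)) → finrank ℝ V + m ≤ i + 1 →
      ∫⁻ ξ, (∏ l, F (ξ l)) * Rad ν δ ξ ^ m ∂(lam E j) ≤ D ^ m * (∫⁻ p, F p ∂(rowM E)) ^ j := by
  induction m with
  | zero =>
    intro V F hF _ _
    simp only [pow_zero, mul_one, one_mul]
    unfold lam
    rw [lintegral_fin_prod _ (fun _ => F) (fun _ => hF)]
    simp
  | succ m ih =>
    intro V F hF hinv hV
    have h1 : ∀ ξ : Fin j → E × ℝ, (∏ l, F (ξ l)) * Rad ν δ ξ ^ (m + 1)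
        = ∫⁻ x, (∏ l, (F (ξ l) * ker δ (ξ l) x)) * Rad ν δ ξ ^ m ∂ν := by
      intro ξ
      simp_rw [Finset.prod_mul_distrib]
      rw [lintegral_mul_const _ (by fun_prop), lintegral_const_mul _ (by fun_prop), pow_succ]
      unfold Rad
      ring
    simp_rw [h1]
    rw [lintegral_lintegral_swap (Measurable.aemeasurable (by fun_prop))]
    have h2 : ∀ x, ∫⁻ ξ, (∏ l, (F (ξ l) * ker δ (ξ l) x)) * Rad ν δ ξ ^ m ∂(lam E j)
        ≤ D ^ m * (∫⁻ p, F p ∂(rowM E)) ^ j * (ENNReal.ofReal (dst V (x - a)))⁻¹ ^ j := by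
      intro x
      have h3 := ih (V ⊔ ℝ ∙ (x - a)) (fun p => F p * ker δ p x) (by fun_prop) (by
        intro w hw g y
        rw [Submodule.mem_orthogonal] at hw
        have hw1 : w ∈ Vᗮ := (Submodule.mem_orthogonal _ _).2 fun u hu =>
          hw u (Submodule.mem_sup_left hu)
        have hw2 : ⟪x - a, w⟫ = 0 :=
          hw _ (Submodule.mem_sup_right (Submodule.mem_span_singleton_self _))
        rw [hinv w hw1]
        simp only [ker, inner_add_left]
        congr 2
        rw [inner_sub_left, real_inner_comm, real_inner_comm w a] at hw2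
        linarith) (by
        have h4 := Submodule.finrank_add_le_finrank_add_finrank V (ℝ ∙ (x - a))
        have h5 : finrank ℝ (ℝ ∙ (x - a)) ≤ 1 := by
          simpa using finrank_span_le_card (R := ℝ) ({x - a} : Set E)
        omega)
      refine h3.trans ?_
      rw [mul_assoc, ← mul_pow]
      gcongr
      rw [mul_comm]
      exact row_peel hδ a x V F hF hinv
    refine (lintegral_mono h2).trans ?_
    have hm : Measurable fun x : E => dst V (x - a) :=
      ((continuous_dst V).comp (by fun_prop)).measurable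
    rw [lintegral_const_mul _ (by fun_prop)]
    calc _ ≤ D ^ m * (∫⁻ p, F p ∂(rowM E)) ^ j * D := by
          gcongr
          exact hD V (by omega)
      _ = _ := by ring

lemma lintegral_Rad_pow {j : ℕ} (ν : Measure E) [SFinite ν] {δ : ℝ} (hδ : 0 < δ) (i : ℕ)
    (D : ℝ≥0∞) (hD : ∀ᵐ a ∂ν, ∀ V : Submodule ℝ E, finrank ℝ V ≤ i →
      ∫⁻ x, (ENNReal.ofReal (dst V (x - a)))⁻¹ ^ j ∂ν ≤ D) :
    ∫⁻ ξ, Rad ν δ ξ ^ (i + 2) ∂(lam E j) ≤ D ^ (i + 1) * ν univ := by
  have h1 : ∀ ξ : Fin j → E × ℝ, Rad ν δ ξ ^ (i + 2)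
      = ∫⁻ a, (∏ l, ker δ (ξ l) a) * Rad ν δ ξ ^ (i + 1) ∂ν := by
    intro ξ
    rw [lintegral_mul_const _ (by fun_prop), pow_succ']
    rfl
  simp_rw [h1]
  rw [lintegral_lintegral_swap (Measurable.aemeasurable (by fun_prop)), ← lintegral_const]
  refine lintegral_mono_ae ?_
  filter_upwards [hD] with a ha
  have h := peel_iter (j := j) ν hδ a i D ha (i + 1) ⊥ (fun p => ker δ p a) (by fun_prop) (by
    intro w _ g y
    simp only [ker, inner_add_left]
    congr 1
    ring) (by simp)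
  rw [lintegral_ker hδ, one_pow, mul_one] at h
  exact h

end Crest.Agent.R322
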